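import Crest.Statements.S0042
import Crest.Agent.Heil.Params

set_option autoImplicit false
open Crest Crest.CombinatoricsR

namespace Crest.Agent.S0042

/-- There are real constants η > 0 and c > 0 and a threshold n₀ such that for every natural number n ≥ n₀ some n points of the closed unit square have the property that every triangle with three distinct vertices among them has area at least c · n ^ (-2 + η). The area of the triangle p q r is half the absolute value of the determinant of q - p and r - p. -/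
theorem result :
    ∃ η : ℝ, 0 < η ∧ ∃ c : ℝ, 0 < c ∧ ∃ n₀ : ℕ, ∀ n : ℕ, n₀ ≤ n →
      ∃ P : Finset (ℝ × ℝ), P.card = n ∧
        (∀ p ∈ P, 0 ≤ p.1 ∧ p.1 ≤ 1 ∧ 0 ≤ p.2 ∧ p.2 ≤ 1) ∧
        ∀ p ∈ P, ∀ q ∈ P, ∀ r ∈ P, p ≠ q → p ≠ r → q ≠ r →
          c * (n : ℝ) ^ (-2 + η) ≤ |(q.1 - p.1) * (r.2 - p.2) - (q.2 - p.2) * (r.1 - p.1)| / 2 := by
  classical
  obtain ⟨K, A, p0, hK, hA, H⟩ := Crest.Agent.Heil.int_points
  have hKR : (0 : ℝ) < K := by exact_mod_cast hK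
  have hAR : (0 : ℝ) < A := by exact_mod_cast hA
  refine ⟨1 / K, by positivity, 1 / (2 * A), by positivity, (p0 + 2) ^ (2 * K), ?_⟩
  intro n hn
  have hex : ∃ y : ℕ, n < y ^ (2 * K) :=
    ⟨n + 1, lt_of_lt_of_le (Nat.lt_succ_self n) (Nat.le_self_pow (by omega) _)⟩
  obtain ⟨y1, hy1⟩ : ∃ y1, y1 = Nat.find hex := ⟨_, rfl⟩
  have h1 : n < y1 ^ (2 * K) := hy1 ▸ Nat.find_spec hex
  have h2 : p0 + 2 < y1 := lt_of_pow_lt_pow_left₀ (2 * K) (Nat.zero_le _) (hn.trans_lt h1)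
  have h3 : (y1 - 1) ^ (2 * K) ≤ n := by
    have := Nat.find_min hex (m := y1 - 1) (by omega)
    omega
  obtain ⟨p, hp, hp1, hp2⟩ := Nat.exists_prime_lt_and_le_two_mul (y1 - 1) (by omega)
  have h4 : p ^ K ≤ n := by
    calc p ^ K ≤ ((y1 - 1) * (y1 - 1)) ^ K :=
          Nat.pow_le_pow_left (hp2.trans (Nat.mul_le_mul_right _ (by omega))) _
      _ = (y1 - 1) ^ (2 * K) := by rw [← pow_two, ← pow_mul]
      _ ≤ n := h3
  have h5 : n < p ^ (2 * K) := h1.trans_le (Nat.pow_le_pow_left (by omega) _)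
  obtain ⟨N, T, P, hN, hc, hr, ht, hfin⟩ := H p n hp (by omega) h4 h5
  have hNR : (0 : ℝ) < N := by exact_mod_cast hN
  have hn0 : 0 < n := lt_of_lt_of_le (pow_pos hp.pos _) h4
  have hnR : (0 : ℝ) < n := by exact_mod_cast hn0
  let f : ℤ × ℤ → ℝ × ℝ := fun q => ((q.1 : ℝ) / N, (q.2 : ℝ) / N)
  have hf : Function.Injective f := by
    intro a b h
    simp only [f, Prod.mk.injEq, div_left_inj' hNR.ne', Int.cast_inj] at h
    exact Prod.ext h.1 h.2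
  refine ⟨P.image f, by rw [Finset.card_image_of_injective _ hf, hc], ?_, ?_⟩
  · intro q hq
    obtain ⟨a, ha, rfl⟩ := Finset.mem_image.mp hq
    obtain ⟨a1, a2, a3, a4⟩ := hr a ha
    have b1 : (0 : ℝ) ≤ a.1 := by exact_mod_cast a1
    have b2 : (a.1 : ℝ) ≤ N := by exact_mod_cast a2
    have b3 : (0 : ℝ) ≤ a.2 := by exact_mod_cast a3
    have b4 : (a.2 : ℝ) ≤ N := by exact_mod_cast a4
    simp only [f]
    exact ⟨by positivity, (div_le_one hNR).mpr b2, by positivity, (div_le_one hNR).mpr b4⟩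
  · intro p' hp' q' hq' r' hr' d1 d2 d3
    obtain ⟨a, ha, rfl⟩ := Finset.mem_image.mp hp'
    obtain ⟨b, hb, rfl⟩ := Finset.mem_image.mp hq'
    obtain ⟨d, hd, rfl⟩ := Finset.mem_image.mp hr'
    have hT := ht b hb d hd a ha (fun h => d3 (h ▸ rfl)) (fun h => d1 (h ▸ rfl)) (fun h => d2 (h ▸ rfl))
    have e : ((f b).1 - (f a).1) * ((f d).2 - (f a).2) - ((f b).2 - (f a).2) * ((f d).1 - (f a).1) =
        ((Crest.Agent.Heil.det (b - a) (d - a) : ℤ) : ℝ) / (N : ℝ) ^ 2 := by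
      simp only [f, Crest.Agent.Heil.det, Prod.fst_sub, Prod.snd_sub]
      push_cast; field_simp
    rw [e, abs_div, abs_of_pos (by positivity : (0 : ℝ) < (N : ℝ) ^ 2), ← Int.cast_abs]
    have hT' : (T : ℝ) ≤ ((|Crest.Agent.Heil.det (b - a) (d - a)| : ℤ) : ℝ) := by exact_mod_cast hT.le
    have hfin' : (p : ℝ) ^ 2 * (N : ℝ) ^ 2 ≤ A * (n : ℝ) ^ 2 * T := by exact_mod_cast hfin
    have hroot : (n : ℝ) ^ (1 / (K : ℝ)) ≤ (p : ℝ) ^ 2 := by
      have h6 : (n : ℝ) ≤ ((p : ℝ) ^ 2) ^ K := by rw [← pow_mul]; exact_mod_cast h5.le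
      calc (n : ℝ) ^ (1 / (K : ℝ)) ≤ (((p : ℝ) ^ 2) ^ K) ^ (1 / (K : ℝ)) :=
            Real.rpow_le_rpow hnR.le h6 (by positivity)
        _ = _ := by rw [one_div, Real.pow_rpow_inv_natCast (by positivity) hK.ne']
    rw [Real.rpow_add hnR, Real.rpow_neg hnR.le, Real.rpow_two]
    calc 1 / (2 * (A : ℝ)) * (((n : ℝ) ^ 2)⁻¹ * (n : ℝ) ^ (1 / (K : ℝ)))
        ≤ 1 / (2 * (A : ℝ)) * (((n : ℝ) ^ 2)⁻¹ * (p : ℝ) ^ 2) := by gcongr
      _ = ((p : ℝ) ^ 2 * (N : ℝ) ^ 2) / (A * (n : ℝ) ^ 2) / (N : ℝ) ^ 2 / 2 := by field_simp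
      _ ≤ (T : ℝ) / (N : ℝ) ^ 2 / 2 := by
          gcongr; rw [div_le_iff₀ (by positivity)]; linarith
      _ ≤ _ := by gcongr

end Crest.Agent.S0042
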