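import Crest.Statements.S0069
import Crest.Agent.Borsuk.NoCol

set_option autoImplicit false
open Crest Crest.CombinatoricsR

namespace Crest.Agent.S0069

open Crest.Agent.Borsuk in
noncomputable def W (v : V4) : EuclideanSpace ℝ (Fin 9) :=
  WithLp.toLp 2 fun i => (d4 v v)⁻¹ *
    ![v 0 ^ 2 + v 1 ^ 2 - v 2 ^ 2 - v 3 ^ 2, 2 * (v 1 * v 2 - v 0 * v 3),
      2 * (v 1 * v 3 + v 0 * v 2), 2 * (v 1 * v 2 + v 0 * v 3),
      v 0 ^ 2 - v 1 ^ 2 + v 2 ^ 2 - v 3 ^ 2, 2 * (v 2 * v 3 - v 0 * v 1),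
      2 * (v 1 * v 3 - v 0 * v 2), 2 * (v 2 * v 3 + v 0 * v 1),
      v 0 ^ 2 - v 1 ^ 2 - v 2 ^ 2 + v 3 ^ 2] i

open Crest.Agent.Borsuk in
theorem dist_W {v w : V4} (hv : v ≠ 0) (hw : w ≠ 0) :
    dist (W v) (W w) ^ 2 = 8 - 8 * (d4 v w ^ 2 / (d4 v v * d4 w w)) := by
  have h1 := (d4_pos hv).ne'
  have h2 := (d4_pos hw).ne'
  rw [EuclideanSpace.dist_eq, Real.sq_sqrt (Finset.sum_nonneg fun _ _ => sq_nonneg _)]
  simp only [W, Fin.sum_univ_succ, Fin.sum_univ_zero, Matrix.cons_val_zero, Matrix.cons_val_succ,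
    Real.dist_eq, sq_abs]
  field_simp
  unfold d4
  ring

open Crest.Agent.Borsuk in
theorem W_neg (v : V4) : W (-v) = W v := by
  simp [W, d4]

open Crest.Agent.Borsuk in
/-- Some bounded subset of nine-dimensional Euclidean space with at least two points cannot be split into ten parts of strictly smaller diameter: however its points are assigned to ten classes, some class has diameter at least that of the whole set. -/
theorem result :
    ∃ S : Set (EuclideanSpace ℝ (Fin 9)), Bornology.IsBounded S ∧ S.Nontrivial ∧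
      ∀ c : EuclideanSpace ℝ (Fin 9) → Fin 10, ∃ i : Fin 10,
        Metric.diam S ≤ Metric.diam (S ∩ c ⁻¹' {i}) := by
  have hle : ∀ v w : V4, v ≠ 0 → w ≠ 0 → dist (W v) (W w) ≤ √8 := by
    intro v w hv hw
    apply Real.le_sqrt_of_sq_le
    rw [dist_W hv hw]
    have := d4_pos hv
    have := d4_pos hw
    have : 0 ≤ d4 v w ^ 2 / (d4 v v * d4 w w) := by positivity
    linarith
  have hb : Bornology.IsBounded (W '' {v | v ≠ 0}) := by
    rw [Metric.isBounded_iff]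
    refine ⟨√8, ?_⟩
    rintro _ ⟨v, hv, rfl⟩ _ ⟨w, hw, rfl⟩
    exact hle v w hv hw
  refine ⟨W '' {v | v ≠ 0}, hb, ?_, ?_⟩
  · have h1 : (![1, 0, 0, 0] : V4) ≠ 0 := fun h => by simpa using congrFun h 0
    have h2 : (![0, 1, 0, 0] : V4) ≠ 0 := fun h => by simpa using congrFun h 1
    refine ⟨_, ⟨_, h1, rfl⟩, _, ⟨_, h2, rfl⟩, fun h => ?_⟩
    have := dist_W h1 h2
    rw [h] at this
    simp [d4] at this
  · intro c
    by_contra hn
    push Not at hn
    have hD : Metric.diam (W '' {v | v ≠ 0}) ≤ √8 := by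
      apply Metric.diam_le_of_forall_dist_le (Real.sqrt_nonneg _)
      rintro _ ⟨v, hv, rfl⟩ _ ⟨w, hw, rfl⟩
      exact hle v w hv hw
    refine Col.false ⟨fun i => closure {v | v ≠ 0 ∧ c (W v) = i}, fun _ => isClosed_closure,
      ?_, ?_, ?_⟩
    · intro i v hv
      refine map_mem_closure (f := fun v : V4 => -v) continuous_neg hv ?_
      rintro v ⟨h1, h2⟩
      exact ⟨by simpa using h1, by rw [W_neg]; exact h2⟩
    · intro v hv
      exact ⟨c (W v), subset_closure ⟨hv, rfl⟩⟩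
    · intro i v w hv hw hv0 hw0
      set d := Metric.diam (W '' {v | v ≠ 0} ∩ c ⁻¹' {i}) with hd
      have hd0 : 0 ≤ d := Metric.diam_nonneg
      have hd8 : d ^ 2 < 8 := by
        have : d < √8 := (hn i).trans_le hD
        exact (Real.lt_sqrt hd0).1 this
      have hcl : IsClosed {p : V4 × V4 |
          (1 - d ^ 2 / 8) * (d4 p.1 p.1 * d4 p.2 p.2) ≤ d4 p.1 p.2 ^ 2} :=
        isClosed_le (by unfold d4; fun_prop) (by unfold d4; fun_prop)
      have hsub : {v | v ≠ 0 ∧ c (W v) = i} ×ˢ {v | v ≠ 0 ∧ c (W v) = i} ⊆ {p : V4 × V4 |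
          (1 - d ^ 2 / 8) * (d4 p.1 p.1 * d4 p.2 p.2) ≤ d4 p.1 p.2 ^ 2} := by
        rintro ⟨a, b⟩ ⟨⟨ha, ha'⟩, hb0, hb'⟩
        have h1 : dist (W a) (W b) ≤ d :=
          Metric.dist_le_diam_of_mem (hb.subset Set.inter_subset_left)
            ⟨⟨a, ha, rfl⟩, ha'⟩ ⟨⟨b, hb0, rfl⟩, hb'⟩
        have h2 : dist (W a) (W b) ^ 2 ≤ d ^ 2 := by gcongr
        rw [dist_W ha hb0] at h2
        have p1 := d4_pos ha
        have p2 := d4_pos hb0
        show (1 - d ^ 2 / 8) * (d4 a a * d4 b b) ≤ d4 a b ^ 2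
        rw [← le_div_iff₀ (by positivity)]
        linarith
      have hm : (v, w) ∈ closure ({v | v ≠ 0 ∧ c (W v) = i} ×ˢ {v | v ≠ 0 ∧ c (W v) = i}) := by
        rw [closure_prod_eq]; exact ⟨hv, hw⟩
      have h3 : (1 - d ^ 2 / 8) * (d4 v v * d4 w w) ≤ d4 v w ^ 2 := closure_minimal hsub hcl hm
      intro e
      have p1 := d4_pos hv0
      have p2 := d4_pos hw0
      have : 0 < (1 - d ^ 2 / 8) * (d4 v v * d4 w w) := mul_pos (by linarith) (mul_pos p1 p2)
      rw [e] at h3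
      linarith

end Crest.Agent.S0069
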