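import Crest.Statements.S0085
import Crest.Agent.GS.Step

set_option autoImplicit false
open Crest Crest.CombinatoricsR

namespace Crest.Agent.S0085

open Crest.Agent.GS Finset in
/-- For every real C > 0 there are a natural number n, a Boolean function f on the n-dimensional Boolean cube and a natural number d such that: f is non-constant; every Fourier–Walsh coefficient of f (values and inputs read as signs +1 for true and -1 for false, averaged over the uniform cube) indexed by a set of more than d coordinates vanishes, so f has degree at most d; and the sum of the n singleton Fourier–Walsh coefficients of f exceeds C times the square root of d. -/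
theorem result (C : ℝ) (hC : 0 < C) :
    ∃ n : ℕ, ∃ f : (Fin n → Bool) → Bool, ∃ d : ℕ,
      (∃ x y, f x ≠ f y) ∧
      (∀ S : Finset (Fin n), d < S.card →
        ∑ x : Fin n → Bool, ((if f x then (1 : ℝ) else -1) * ∏ i ∈ S, (if x i then (1 : ℝ) else -1)) = 0) ∧
      C * Real.sqrt d <
        ∑ i : Fin n, (∑ x : Fin n → Bool, ((if f x then (1 : ℝ) else -1) * (if x i then (1 : ℝ) else -1))) / 2 ^ n := by
  classical
  obtain ⟨c, hc, h⟩ := exists_efficient
  obtain ⟨X, d, s, hd, hcost, hs, hη, hL⟩ := h ((2 * C / c) ^ 2)
  let n := Fintype.card X.ι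
  let e : X.ι ≃ Fin n := Fintype.equivFin X.ι
  let f : (Fin n → Bool) → Bool := fun x => decide (0 ≤ X.val (X.σ (fun i => x (e i))))
  have hlow : (fun x => sg (f x)) ∈ Low (Fin n) d := by
    have h1 := low_of_fibres X.σ d (fun _ => True) (fun x0 _ => by
      have := X.low (X.σ x0)
      rw [hcost] at this
      exact this) (fun a => sg (decide (0 ≤ X.val a))) (fun _ hb => absurd trivial hb)
    exact low_comp e h1
  have hsum : ∀ F : (Fin n → Bool) → ℝ,
      ∑ i : Fin n, (∑ x : Fin n → Bool, (F x * (if x i then (1 : ℝ) else -1))) / 2 ^ n =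
        av (fun x => SS x * F x) := by
    intro F
    rw [← sum_div, sum_comm]
    unfold av SS sg
    congr 1
    · refine sum_congr rfl fun x _ => ?_
      rw [← mul_sum, mul_comm]
    · simp
  have hval : av (fun x => SS x * sg (f x)) = X.E (fun a => |X.val a|) := by
    have h1 := X.ce (fun a => sg (decide (0 ≤ X.val a)))
    have h2 := av_equiv (Equiv.arrowCongr e.symm (Equiv.refl Bool))
      (fun x => SS x * sg (decide (0 ≤ X.val (X.σ x))))
    rw [h1] at h2
    refine Eq.trans (av_congr fun x => ?_) (h2.trans (av_congr fun x => ?_))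
    · have e1 : (Equiv.arrowCongr e.symm (Equiv.refl Bool)) x = fun i => x (e i) := by
        funext i; simp [Equiv.arrowCongr_apply]
      rw [e1]
      congr 1
      exact (Equiv.sum_comp e (fun i => sg (x i))).symm
    · by_cases h0 : 0 ≤ X.val (X.σ x)
      · simp [sg, h0, abs_of_nonneg h0]
      · simp [sg, h0, abs_of_neg (not_le.1 h0)]
  have hlt : C * Real.sqrt d < av (fun x => SS x * sg (f x)) := by
    rw [hval]
    refine lt_of_lt_of_le ?_ hL
    have hd' : (0 : ℝ) < d := by exact_mod_cast hd
    have h1 : 0 < Real.sqrt d := Real.sqrt_pos.2 hd'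
    have h2 : 2 * C / c * Real.sqrt d ≤ s := by
      refine (pow_le_pow_iff_left₀ (by positivity) hs.le two_ne_zero).1 ?_
      rw [mul_pow, Real.sq_sqrt hd'.le]
      exact hη
    rw [div_mul_eq_mul_div, div_le_iff₀ hc] at h2
    nlinarith [mul_pos hC h1]
  refine ⟨n, f, d, ?_, fun S hS => low_fourier hlow S hS, ?_⟩
  · by_contra hcon
    push Not at hcon
    have : av (fun x => SS x * sg (f x)) = 0 := by
      have e1 : ∀ x, sg (f x) = sg (f (fun _ => true)) := fun x => by rw [hcon x (fun _ => true)]
      simp only [e1]
      rw [av_mul_const, av_SS, zero_mul]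
    rw [this] at hlt
    have : 0 ≤ C * Real.sqrt d := by positivity
    linarith
  · exact hlt.trans_le (hsum (fun x => sg (f x))).ge

end Crest.Agent.S0085
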