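import Crest.Statements.S0100
import Crest.Agent.UF.Round
import Crest.Agent.UF.Approx
import Crest.Agent.UF.Assemble

set_option autoImplicit false
open Crest Crest.AnalysisR

namespace Crest.Agent.S0100

/-- For every real `ε` with `0 < ε < 1` there is a threshold `N₀` such that for every integer `N ≥ N₀` one can choose signs `c 0, …, c (N-1)` in `{-1, 1}` so that the polynomial `∑ k, c k * z ^ k` has modulus between `(1 - ε) * √N` and `(1 + ε) * √N` at every complex number `z` of modulus one. -/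
theorem result (ε : ℝ) (hε : 0 < ε)
    (hε₁ : ε < 1) :
    ∃ N₀ : ℕ, ∀ N ≥ N₀, ∃ c : Fin N → ℤˣ, ∀ z : ℂ, ‖z‖ = 1 →
      (1 - ε) * Real.sqrt N ≤ ‖∑ k : Fin N, ((c k : ℤ) : ℂ) * z ^ (k : ℕ)‖ ∧
        ‖∑ k : Fin N, ((c k : ℤ) : ℂ) * z ^ (k : ℕ)‖ ≤ (1 + ε) * Real.sqrt N := by
  obtain ⟨δ, hδ, hR⟩ := Crest.Agent.UF.round_signs (ε / 2) (by positivity)
  obtain ⟨τ, hτ, τ1, τ2⟩ : ∃ τ : ℝ, 0 < τ ∧ τ ≤ ε / 4 ∧ τ ≤ δ / 4 :=
    ⟨min (ε / 4) (δ / 4), lt_min (by positivity) (by positivity), min_le_left _ _, min_le_right _ _⟩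
  obtain ⟨η, C, hη, hC, N₀, h₀⟩ := Crest.Agent.UF.exists_chirp τ hτ
  obtain ⟨N₁, h₁⟩ := Crest.Agent.UF.approx_poly η C τ hη hC hτ
  refine ⟨N₀ + N₁ + 1, fun N hN => ?_⟩
  obtain ⟨ψ, a1, a2, a3, a4, a5⟩ := h₀ N (by omega)
  obtain ⟨v, hv, hP⟩ := h₁ N (by omega) ψ a1 a2 a3 a4
  have hN0 : (0 : ℝ) < N := by exact_mod_cast (by omega : 0 < N)
  have hs : 0 < Real.sqrt N := Real.sqrt_pos.mpr hN0
  set I : Fin N → ℝ := fun k =>
    2 * (∫ y in (0 : ℝ)..(1 / 2), Crest.Agent.UF.e (ψ y - (k : ℕ) * y)).re with hI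
  let x : Fin N → ℝ := fun k => Real.sqrt N / (1 + τ) * (v k * I k)
  have hx : ∀ k, |x k| ≤ 1 := fun k => by
    have h1 : Real.sqrt N * |I k| ≤ 1 + τ := a5 k
    simp only [x]
    rw [abs_mul, abs_mul, abs_of_pos (by positivity : 0 < Real.sqrt N / (1 + τ)),
      abs_of_nonneg (hv k).1, div_mul_eq_mul_div, div_le_one (by positivity)]
    nlinarith [mul_le_of_le_one_left (mul_nonneg hs.le (abs_nonneg (I k))) (hv k).2]
  have hxP : ∀ θ : ℝ,
      (1 - 2 * τ) * Real.sqrt N ≤ ‖∑ k : Fin N, (x k : ℂ) * Crest.Agent.UF.e ((k : ℕ) * θ)‖ ∧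
      ‖∑ k : Fin N, (x k : ℂ) * Crest.Agent.UF.e ((k : ℕ) * θ)‖ ≤ Real.sqrt N := fun θ => by
    have h1 := abs_le.mp (hP θ)
    have e : ∑ k : Fin N, (x k : ℂ) * Crest.Agent.UF.e ((k : ℕ) * θ)
        = ((Real.sqrt N / (1 + τ) : ℝ) : ℂ)
          * ∑ k : Fin N, ((v k * I k : ℝ) : ℂ) * Crest.Agent.UF.e ((k : ℕ) * θ) := by
      rw [Finset.mul_sum]
      exact Finset.sum_congr rfl fun k _ => by simp only [x]; push_cast; ring
    rw [e, norm_mul, Complex.norm_real, Real.norm_of_nonneg (by positivity), div_mul_eq_mul_div,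
      le_div_iff₀ (by positivity), div_le_iff₀ (by positivity)]
    simp only [hI] at h1 ⊢
    constructor <;> nlinarith [mul_pos hs (mul_pos hτ hτ)]
  have hpar := Crest.Agent.UF.parseval_lower N (by omega) x _
    (mul_nonneg (by linarith) hs.le) fun θ => (hxP θ).1
  rw [mul_pow, Real.sq_sqrt hN0.le] at hpar
  obtain ⟨y, hy⟩ := hR N x hx (by
    rw [Finset.sum_sub_distrib, Finset.sum_const, Finset.card_univ, Fintype.card_fin, nsmul_eq_mul]
    nlinarith [mul_pos hN0 (mul_pos hτ hτ)])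
  refine ⟨y, fun z hz => ?_⟩
  obtain ⟨θ, rfl⟩ := Crest.Agent.UF.exists_e_of_norm_one hz
  have e : ∑ k : Fin N, ((y k : ℤ) : ℂ) * Crest.Agent.UF.e θ ^ (k : ℕ)
      = ∑ k : Fin N, (x k : ℂ) * Crest.Agent.UF.e ((k : ℕ) * θ)
        + ∑ k : Fin N, ((((y k : ℤ) : ℝ) - x k : ℝ) : ℂ) * Crest.Agent.UF.e ((k : ℕ) * θ) := by
    rw [← Finset.sum_add_distrib]
    exact Finset.sum_congr rfl fun k _ => by rw [← Crest.Agent.UF.e_nat_mul]; push_cast; ring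
  have h1 := hxP θ
  have h2 := hy θ
  rw [e]
  refine ⟨le_trans ?_ (norm_sub_le_norm_add _ _), ?_⟩
  · nlinarith
  · exact (norm_add_le _ _).trans (by nlinarith)

end Crest.Agent.S0100
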