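import Crest.Statements.S0170
import Crest.Agent.BoxFlow.Geom

set_option autoImplicit false
open scoped ContDiff
open Crest.AnalysisR.BoxFlow
open Crest Crest.AnalysisR

namespace Crest.Agent.S0170

open Crest.Agent.BoxFlow Set

/-- Finitely many pairwise disjoint rational boxes in 3-space are carried onto disjoint target boxes, each a translated determinant-one positive diagonal rescaling of its source, by the time-one flow of a smooth, compactly supported, effective, divergence-free velocity field active only in [1/4,3/4]. The flow equals the prescribed affine map on a neighbourhood of each source box. Effective: computably approximable mixed derivatives at rational points and computable global derivative bounds. -/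
theorem result
    (n : ℕ) (a b h k : Fin n → Fin 3 → ℚ)
    (hh : ∀ i j, 0 < h i j) (hk : ∀ i j, 0 < k i j)
    (ha : Pairwise fun i i' => Disjoint (box (a i) (h i)) (box (a i') (h i')))
    (hb : Pairwise fun i i' => Disjoint (box (b i) (k i)) (box (b i') (k i')))
    (hvol : ∀ i, ∏ j : Fin 3, k i j / h i j = 1) :
    ∃ (U : Field) (Φ : ℝ → (Fin 3 → ℝ) → (Fin 3 → ℝ)),
      ContDiff ℝ ∞ U ∧ HasCompactSupport U ∧ Effective U ∧
      (∀ p : ℝ × (Fin 3 → ℝ), p.1 ∉ Set.Icc (1 / 4 : ℝ) (3 / 4) → U p = 0) ∧
      (∀ p : ℝ × (Fin 3 → ℝ), spaceDiv U p = 0) ∧ IsFlow U Φ ∧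
      ∀ i : Fin n, ∃ O : Set (Fin 3 → ℝ), IsOpen O ∧ box (a i) (h i) ⊆ O ∧
        ∀ x ∈ O, Φ 1 x = fun j => (b i j : ℝ) + ((k i j / h i j : ℚ) : ℝ) * (x j - (a i j : ℝ)) := by
  obtain ⟨g, N, M, hM1, hM, hsep⟩ := exists_motion a b h k hh hk ha hb hvol
  have hr : ∀ i j, 0 < k i j / h i j := fun i j => div_pos (hk i j) (hh i j)
  set c : Fin n → Fin 3 → ℝ → ℝ := fun i j t => cc N (a i j) (b i j) (g i j) (σ t) with hc
  set d : Fin n → Fin 3 → ℝ → ℝ := fun i j t => sc (fun j => k i j / h i j) j (σ t) with hd
  have ec : ∀ i j, Eff fun p => c i j p.1 := fun i j => eff_cc _ _ _ _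
  have ed : ∀ i j, Eff fun p => d i j p.1 := fun i j => eff_sc (hr i) j
  have hη : ((1 / ((N : ℚ) + 1) : ℚ) : ℝ) = 1 / ((N : ℝ) + 1) := by push_cast; rfl
  obtain ⟨u, hu, huM, hut, hdiv, hmove⟩ := exists_field c d h (1 / ((N : ℚ) + 1)) M ec ed
    (fun i t => sc_prod (hr i) (σ_mem t)) (fun i j t ht => deriv_comp_σ _ ht)
    (fun i j t ht => deriv_comp_σ _ ht) (by positivity)
    (fun i j t => by rw [hη]; exact hM i j _ (σ_mem t)) hM1
    (fun i i' hii t => by rw [hη]; exact hsep i i' hii _ (σ_mem t))
  rw [hη] at hmove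
  have hU : ContDiff ℝ ∞ (fun p j => u j p : Field) := contDiff_pi.mpr fun j => (hu j).smooth
  have hcs : HasCompactSupport (fun p j => u j p : Field) :=
    HasCompactSupport.intro (isCompact_closedBall 0 (M : ℝ)) fun p hp =>
      funext fun j => huM j p (by simpa using hp)
  have h0 : ∀ p : ℝ × (Fin 3 → ℝ), p.1 ∉ Set.Icc (1 / 4 : ℝ) (3 / 4) →
      (fun p j => u j p : Field) p = 0 := fun p hp => funext fun j => hut j p hp
  obtain ⟨Φ, hΦ, huniq⟩ := exists_flow hU hcs h0
  refine ⟨_, Φ, hU, hcs, effective_of_eff hu huM, h0, fun p => ?_, hΦ, fun i => ?_⟩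
  · rw [← hdiv p]
    refine Finset.sum_congr rfl fun j _ => ?_
    have := congrFun (congrFun (mixedDeriv_eq (fun j => (hu j).smooth) [j.succ]) p) j
    simp only [mixedDeriv, md, direction_succ] at this
    exact this
  · set η : ℝ := 1 / ((N : ℝ) + 1) with hηdef
    have hη0 : 0 < η := by positivity
    have hM0 : (0 : ℝ) < M := by exact_mod_cast hM1
    have hh' : ∀ j, (0 : ℝ) < h i j := fun j => by exact_mod_cast hh i j
    refine ⟨{x | ∀ j, |x j - a i j| < h i j + η * h i j / M}, ?_, fun x hx j => ?_,
      fun x hx => ?_⟩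
    · rw [ofPred_forall]
      exact isOpen_iInter_of_finite fun j => isOpen_lt (by fun_prop) continuous_const
    · have := hh' j
      exact (hx j).trans_lt (lt_add_of_pos_right _ (by positivity))
    · rw [huniq x (fun t j => c i j t + d i j t * (x j - a i j)) ?_ ?_ 1]
      · funext j
        simp only [hc, hd, σ_of_ge (show (3 / 4 : ℝ) ≤ 1 by norm_num), sc_one (hvol i), cc, mm]
        ring
      · funext j
        simp only [hc, hd, σ_of_le (show (0 : ℝ) ≤ 1 / 4 by norm_num), sc_zero, cc, mm]
        ring
      · intro t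
        refine hasDerivAt_pi.mpr fun j => ?_
        rw [hmove i t (fun j => x j - a i j) (fun j => ?_) j]
        · exact (diff_time (ec i j) t).hasDerivAt.add
            ((diff_time (ed i j) t).hasDerivAt.mul_const _)
        · have hd0 : 0 < d i j t := sc_pos (hr i) (σ_mem t) j
          have h1 : (h i j : ℝ) * d i j t ≤ M := by
            have := hM i j _ (σ_mem t)
            have h2 := abs_nonneg (cc N (a i j) (b i j) (g i j) (σ t))
            simp only [hd]
            linarith
          rw [abs_mul, abs_of_pos hd0]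
          refine (mul_lt_mul_of_pos_left (hx j) hd0).trans_le ?_
          have h3 : d i j t * (η * h i j / M) ≤ η := by
            rw [← mul_div_assoc, div_le_iff₀ hM0]
            nlinarith
          linarith

end Crest.Agent.S0170
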