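import Crest.Statements.S0179
import Crest.Agent.Crouzeix.TH

set_option autoImplicit false
open Crest Crest.AnalysisR

namespace Crest.Agent.S0179

/-- Let A be a bounded operator on a complex Hilbert space H, m ≥ 0, and P(z) = ∑_{k ≤ d} z^k B_k a polynomial with m × m complex matrix coefficients. Suppose M bounds the operator norm (on Euclidean ℂ^m) of P(z) for every z in the numerical range {⟨x, A x⟩ : ‖x‖ = 1}. Then the operator P[A] = ∑_k A^k ⊗ B_k on H ⊗ ℂ^m, written in coordinates as (v_j)_{j<m} ↦ (∑_j ∑_k (B_k)_{ij} A^k v_j)_{i<m} with the ℓ²-norm of the component norms, satisfies ‖P[A] v‖ ≤ 2 M ‖v‖ for every v. -/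
theorem result
    {H : Type*} [NormedAddCommGroup H] [InnerProductSpace ℂ H] [CompleteSpace H]
    (A : H →L[ℂ] H) (m d : ℕ) (B : Fin (d + 1) → Matrix (Fin m) (Fin m) ℂ) (M : ℝ)
    (hM : ∀ x : H, ‖x‖ = 1 →
      ‖Matrix.toEuclideanCLM (n := Fin m) (𝕜 := ℂ)
          (∑ k : Fin (d + 1), (inner ℂ x (A x)) ^ (k : ℕ) • B k)‖ ≤ M)
    (v : PiLp 2 (fun _ : Fin m => H)) :
    ‖(WithLp.toLp 2 (fun i : Fin m => ∑ j : Fin m, ∑ k : Fin (d + 1), B k i j • (A ^ (k : ℕ)) (v j))
        : PiLp 2 (fun _ : Fin m => H))‖ ≤ 2 * M * ‖v‖ := by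
  classical
  set E : Submodule ℂ H := Submodule.span ℂ
    (Set.range fun p : Fin (d + 1) × Fin m => (A ^ (p.1 : ℕ)) (v p.2)) with hE
  have hfin : FiniteDimensional ℂ E := FiniteDimensional.span_of_finite ℂ (Set.finite_range _)
  have hcomp : CompleteSpace E := FiniteDimensional.complete ℂ E
  have hmem : ∀ (k : ℕ) (j : Fin m), k ≤ d → (A ^ k) (v j) ∈ E := fun k j hk =>
    Submodule.subset_span ⟨(⟨k, by omega⟩, j), rfl⟩
  set A' : E →L[ℂ] E := E.orthogonalProjectionOnto ∘L A ∘L E.subtypeL with hA'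
  have hinner : ∀ x : E, inner ℂ x (A' x) = inner ℂ (x : H) (A x) := by
    intro x
    simp [hA']
  set v' : PiLp 2 (fun _ : Fin m => E) :=
    WithLp.toLp 2 fun j => ⟨v j, by simpa using hmem 0 j (Nat.zero_le _)⟩ with hv'
  have hpow : ∀ (k : ℕ) (j : Fin m), k ≤ d → (((A' ^ k) (v' j) : E) : H) = (A ^ k) (v j) := by
    intro k j
    induction k with
    | zero => intro _; simp [hv']
    | succ k ih =>
      intro hk
      have h1 := hmem (k + 1) j hk
      rw [pow_succ', mul_apply_eq_comp] at h1 ⊢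
      rw [pow_succ', mul_apply_eq_comp]
      simp only [hA', ContinuousLinearMap.comp_apply, Submodule.subtypeL_apply]
      rw [← hA', ih (by omega)]
      exact congrArg Subtype.val
        (Submodule.orthogonalProjectionOnto_mem_subspace_eq_self (⟨_, h1⟩ : E))
  have key := Crouzeix.core_numRange A'
    (fun i j => ∑ k : Fin (d + 1), Polynomial.monomial (k : ℕ) (B k i j)) (M := M) (by
      intro x hx
      have := hM x hx
      rw [← hinner] at this
      convert this using 3
      ext i j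
      simp [Polynomial.eval_finsetSum, Matrix.sum_apply, mul_comm]) v'
  have e1 : ‖v'‖ = ‖v‖ := by
    rw [PiLp.norm_eq_of_L2, PiLp.norm_eq_of_L2]
    rfl
  rw [e1] at key
  refine le_of_eq_of_le ?_ key
  rw [PiLp.norm_eq_of_L2, PiLp.norm_eq_of_L2]
  congr 1
  refine Finset.sum_congr rfl fun i _ => ?_
  congr 1
  rw [Submodule.coe_norm]
  congr 1
  simp only [Crouzeix.polyOp, LinearMap.coe_mk, AddHom.coe_mk, map_sum, Polynomial.aeval_monomial,
    Submodule.coe_sum, FunLike.coe_sum, Finset.sum_apply, Algebra.algebraMap_eq_smul_one,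
    smul_mul_assoc, one_mul, smul_apply, Submodule.coe_smul]
  refine Finset.sum_congr rfl fun j _ => Finset.sum_congr rfl fun k _ => ?_
  rw [hpow k j (by omega)]

end Crest.Agent.S0179
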