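import Crest.Statements.S0181
import Crest.Agent.Crouzeix.Reparam

set_option autoImplicit false
open scoped ComplexOrder
open Crest.AnalysisR.NumRange
open Crest Crest.AnalysisR Crest.AnalysisR.NumRange

namespace Crest.Agent.S0181

open Set Metric Filter Topology Crest.Agent.Crouzeix
open scoped Matrix Matrix.Norms.L2Operator Kronecker

lemma conj_aeval {n : ℕ} {S : Matrix (Fin n) (Fin n) ℂ} (h1 : S * S⁻¹ = 1) (h2 : S⁻¹ * S = 1)
    (M : Matrix (Fin n) (Fin n) ℂ) (q : Polynomial ℂ) :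
    Polynomial.aeval (S * M * S⁻¹) q = S * Polynomial.aeval M q * S⁻¹ := by
  induction q using Polynomial.induction_on with
  | C a => simp [Algebra.algebraMap_eq_smul_one, h1]
  | add p q hp hq => rw [map_add, map_add, hp, hq, mul_add, add_mul]
  | monomial k a ih =>
    rw [pow_succ, ← mul_assoc, map_mul _ _ Polynomial.X, map_mul _ _ Polynomial.X, ih,
      Polynomial.aeval_X, Polynomial.aeval_X]
    simp only [mul_assoc]
    rw [← mul_assoc S⁻¹ S, h2, one_mul]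

lemma avg_entry {n : ℕ} {P : ℂ → Matrix (Fin n) (Fin n) ℂ} (hP : ContinuousOn P (sphere 0 1))
    (a b : Fin n) : Real.circleAverage (fun t => P t a b) 0 1 = Real.circleAverage P 0 1 a b := by
  let L : Matrix (Fin n) (Fin n) ℂ →L[ℝ] ℂ :=
    LinearMap.toContinuousLinearMap (Matrix.entryLinearMap ℝ ℂ a b)
  exact L.circleAverage_comp_comm (cint one_pos hP)

lemma avg_eq (h : ℂ → ℂ) : (2 * Real.pi : ℂ)⁻¹ * (∫ θ in (0 : ℝ)..2 * Real.pi,
    h (circleMap 0 1 θ)) = Real.circleAverage h 0 1 := by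
  rw [Real.circleAverage_def, Complex.real_smul]
  push_cast
  rfl

/-- Setting of the optimal-metric statement; also G is holomorphic and injective on {t : r < ‖t‖} for some r < 1 with G({t : 1 < ‖t‖}) the complement of the closure of Ω, (H, κ²) is an optimal metric pair for f(A), and S ≽ 0 with S² = H. Then one continuous 2π-periodic positive semidefinite density Λ of mean I gives, for all m ≥ 1 and m × m matrix-valued v holomorphic near the closure of Ω, v[SAS⁻¹] = (1/2π) ∫ Λ(θ) ⊗ v(G(e^{iθ})) dθ entrywise, and ‖v[A]‖ ≤ κ sup ‖v‖ over the closure of Ω. -/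
theorem result
    (n : ℕ) (hn : 1 ≤ n) (A : Matrix (Fin n) (Fin n) ℂ)
    (Ω U : Set ℂ) (hΩ₁ : IsOpen Ω) (hΩ₂ : Bornology.IsBounded Ω) (hΩ₃ : Convex ℝ Ω)
    (hU : IsOpen U) (hΩU : closure Ω ⊆ U)
    (f : ℂ → ℂ) (hf₁ : DifferentiableOn ℂ f U) (hf₂ : Set.InjOn f U)
    (hf₃ : f '' Ω = Metric.ball 0 1)
    (G : ℂ → ℂ) (r : ℝ) (hr₁ : 0 < r) (hr₂ : r < 1)
    (hG₁ : DifferentiableOn ℂ G {t : ℂ | r < ‖t‖}) (hG₂ : Set.InjOn G {t : ℂ | r < ‖t‖})
    (hG₃ : G '' {t : ℂ | 1 < ‖t‖} = (closure Ω)ᶜ)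
    (hA : numRange A ⊆ Ω) (p : Polynomial ℂ) (hp : AgreesOnSpectrum A f p)
    (H : Matrix (Fin n) (Fin n) ℂ) (κsq : ℝ) (hH : IsOptimalMetric (Polynomial.aeval A p) H κsq)
    (S : Matrix (Fin n) (Fin n) ℂ) (hS₁ : S.PosSemidef) (hS₂ : S * S = H) :
    ∃ Λ : ℝ → Matrix (Fin n) (Fin n) ℂ, Continuous Λ ∧ Function.Periodic Λ (2 * Real.pi) ∧
      (∀ θ, (Λ θ).PosSemidef) ∧
      (∀ a b, (2 * Real.pi : ℂ)⁻¹ * (∫ θ in (0 : ℝ)..2 * Real.pi, Λ θ a b)
        = (1 : Matrix (Fin n) (Fin n) ℂ) a b) ∧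
      ∀ (m : ℕ), 1 ≤ m → ∀ (V : Set ℂ), IsOpen V → closure Ω ⊆ V →
        ∀ v : ℂ → Matrix (Fin m) (Fin m) ℂ, (∀ c d, DifferentiableOn ℂ (fun z => v z c d) V) →
        ∀ q : Fin m → Fin m → Polynomial ℂ,
          (∀ c d, AgreesOnSpectrum A (fun z => v z c d) (q c d)) →
          (∀ a b c d, Polynomial.aeval (S * A * S⁻¹) (q c d) a b =
              (2 * Real.pi : ℂ)⁻¹ * (∫ θ in (0 : ℝ)..2 * Real.pi,
                Λ θ a b * v (G (Complex.exp ((θ : ℂ) * Complex.I))) c d)) ∧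
          ∀ M : ℝ, (∀ z ∈ closure Ω, ‖Matrix.toEuclideanCLM (n := Fin m) (𝕜 := ℂ) (v z)‖ ≤ M) →
            ‖Matrix.toEuclideanCLM (n := Fin n × Fin m) (𝕜 := ℂ)
                (Matrix.of fun (i : Fin n × Fin m) (j : Fin n × Fin m) =>
                  Polynomial.aeval A (q i.2 j.2) i.1 j.1)‖ ≤ Real.sqrt κsq * M := by
  have hΩU' : Ω ⊆ U := subset_closure.trans hΩU
  obtain ⟨⟨s, hs, hs1, hCB⟩, hfc⟩ := setting hn A hΩ₁ (hf₁.mono hΩU') (hf₂.mono hΩU')
    hf₃ hA p hp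
  set T := Polynomial.aeval A p with hT
  obtain ⟨⟨hH1, hH2, hH3⟩, -⟩ := hH
  have hκ : 1 ≤ κsq := one_le_of_feasible hn ⟨hH1, hH2, hH3⟩
  have hSu : IsUnit S := by
    have : (1 + (H - 1)).PosDef := Matrix.PosDef.one.add_posSemidef hH1
    rw [add_sub_cancel, ← hS₂] at this
    exact isUnit_mul_self_iff.mp this.isUnit
  have hSd : IsUnit S.det := (Matrix.isUnit_iff_isUnit_det S).mp hSu
  have hS1 : S * S⁻¹ = 1 := Matrix.mul_nonsing_inv S hSd
  have hS2 : S⁻¹ * S = 1 := Matrix.nonsing_inv_mul S hSd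
  have hSh : Sᴴ = S := hS₁.isHermitian
  have hSh' : S⁻¹ᴴ = S⁻¹ := hS₁.isHermitian.inv
  set X := S * T * S⁻¹ with hX
  have hXc : (1 - Xᴴ * X).PosSemidef := by
    have key := hH3.conjTranspose_mul_mul_same S⁻¹
    refine Eq.mp (congrArg _ ?_) key
    rw [hX, Matrix.conjTranspose_mul, Matrix.conjTranspose_mul, hSh, hSh', ← hS₂, mul_sub, sub_mul,
      ← mul_assoc, hS2, one_mul, hS1]
    simp only [mul_assoc]
  have hconj : Continuous fun Y : Matrix (Fin n) (Fin n) ℂ => S * Y * S⁻¹ := by fun_prop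
  have hX0 : Tendsto (fun j => X ^ j) atTop (𝓝 0) := by
    have := (hconj.tendsto 0).comp (hCB.tendsto_pow hs hs1)
    rw [mul_zero, zero_mul] at this
    refine this.congr fun j => ?_
    have := conj_aeval hS1 hS2 T (Polynomial.X ^ j)
    simp only [map_pow, Polynomial.aeval_X] at this
    exact this.symm
  obtain ⟨P, hPc, hPp, hPt⟩ := exists_poisson hXc hX0
  have hEo : IsOpen {t : ℂ | r < ‖t‖} := isOpen_lt continuous_const continuous_norm
  have hSE : sphere (0 : ℂ) 1 ⊆ {t : ℂ | r < ‖t‖} := fun t ht => by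
    simpa [mem_sphere_zero_iff_norm.mp ht] using hr₂
  have hGcl : ∀ t ∈ sphere (0 : ℂ) 1, G t ∈ closure Ω := by
    intro t ht
    by_contra hcon
    obtain ⟨t', ht', e⟩ : G t ∈ G '' {t : ℂ | 1 < ‖t‖} := hG₃ ▸ hcon
    have := hG₂ (show r < ‖t'‖ from hr₂.trans ht') (hSE ht) e
    rw [this, mem_ofPred_eq, mem_sphere_zero_iff_norm.mp ht] at ht'
    exact lt_irrefl _ ht'
  have hrad : ∀ t ∈ sphere (0 : ℂ) 1, Tendsto (fun ρ : ℝ => t + ρ * t) (𝓝[>] 0) (𝓝 t) :=
    fun t _ => (Continuous.tendsto' (by fun_prop) 0 t (by simp)).mono_left nhdsWithin_le_nhds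
  have hGout : ∀ t ∈ sphere (0 : ℂ) 1, ∀ᶠ ρ : ℝ in 𝓝[>] 0, G (t + ρ * t) ∉ Ω := by
    intro t ht
    filter_upwards [self_mem_nhdsWithin] with ρ (hρ : 0 < ρ) hcon
    have : G (t + ρ * t) ∈ (closure Ω)ᶜ := by
      rw [← hG₃]
      refine mem_image_of_mem G ?_
      have e : t + ρ * t = ((1 + ρ : ℝ) : ℂ) * t := by push_cast; ring
      rw [mem_ofPred_eq, e, norm_mul, mem_sphere_zero_iff_norm.mp ht, Complex.norm_real,
        Real.norm_eq_abs, abs_of_pos (by linarith)]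
      linarith
    exact this (subset_closure hcon)
  have hGn : ∀ t ∈ sphere (0 : ℂ) 1, G t ∉ Ω := fun t ht =>
    hΩ₁.isClosed_compl.mem_of_tendsto
      ((hG₁.continuousOn.continuousAt (hEo.mem_nhds (hSE ht))).tendsto.comp (hrad t ht))
      (hGout t ht)
  have hfout : ∀ z ∈ U, z ∉ Ω → 1 ≤ ‖f z‖ := by
    intro z hz hzΩ
    by_contra hcon
    push Not at hcon
    obtain ⟨z', hz', e⟩ : f z ∈ f '' Ω := hf₃ ▸ mem_ball_zero_iff.mpr hcon
    exact hzΩ (hf₂ (hΩU' hz') hz e ▸ hz')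
  have hfcl : ∀ z ∈ closure Ω, ‖f z‖ ≤ 1 := by
    intro z hz
    have := (hf₁.continuousOn.mono hΩU).image_closure (mem_image_of_mem f hz)
    rw [hf₃, closure_ball _ one_ne_zero] at this
    simpa using this
  set W := {t : ℂ | r < ‖t‖} ∩ G ⁻¹' U with hW
  have hWo : IsOpen W := hG₁.continuousOn.isOpen_inter_preimage hEo hU
  have hSW : sphere (0 : ℂ) 1 ⊆ W := fun t ht => ⟨hSE ht, hΩU (hGcl t ht)⟩
  have hγd : DifferentiableOn ℂ (fun t => f (G t)) W :=
    hf₁.comp (hG₁.mono inter_subset_left) fun t ht => ht.2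
  have hγn : ∀ t ∈ sphere (0 : ℂ) 1, ‖f (G t)‖ = 1 := fun t ht =>
    le_antisymm (hfcl _ (hGcl t ht)) (hfout _ (hSW ht).2 (hGn t ht))
  obtain ⟨w, hwc, hw0, hwh⟩ := reparam hWo hSW hγd
    (fun a ha b hb e => hG₂ ha.1 hb.1 (hf₂ ha.2 hb.2 e)) hγn (by
      intro t ht
      filter_upwards [hGout t ht, (hrad t ht).eventually (hWo.mem_nhds (hSW ht))] with ρ h1 h2
      exact hfout _ h2.2 h1)
  set L : ℂ → Matrix (Fin n) (Fin n) ℂ := fun t => (w t : ℂ) • P (f (G t)) with hL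
  have hLc : ContinuousOn L (sphere 0 1) :=
    (Complex.continuous_ofReal.comp_continuousOn hwc).smul
      (hPc.comp (hγd.continuousOn.mono hSW) fun t ht => by simpa using hγn t ht)
  have hLc' : ∀ a b, ContinuousOn (fun t => L t a b) (sphere 0 1) := fun a b =>
    (continuous_apply_apply a b).comp_continuousOn hLc
  have hPc' : ∀ a b, ContinuousOn (fun t => P t a b) (sphere 0 1) := fun a b =>
    (continuous_apply_apply a b).comp_continuousOn hPc
  have hLp : ∀ t ∈ sphere (0 : ℂ) 1, (L t).PosSemidef := fun t ht =>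
    (hPp _ (by simpa using hγn t ht)).smul (Complex.zero_le_real.mpr (hw0 t ht))
  have hL1 : ∀ a b, Real.circleAverage (fun t => L t a b) 0 1 =
      (1 : Matrix (Fin n) (Fin n) ℂ) a b := by
    intro a b
    have h1 := hwh _ (hPc' a b)
    have h2 := hPt 1
    simp only [Polynomial.eval_one, one_smul, map_one] at h2
    rw [avg_entry hPc, h2] at h1
    exact h1
  refine ⟨fun θ => L (circleMap 0 1 θ), cont_circle hLc, (periodic_circleMap 0 1).comp L,
    fun θ => hLp _ (circleMap_mem_sphere 0 zero_le_one θ),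
    fun a b => (avg_eq fun t => L t a b).trans (hL1 a b), ?_⟩
  intro m _ V hV hΩV v hv q hq
  obtain ⟨hio, F, hF, hFl, -⟩ := exists_holo_inv (hU.inter hV) (hf₁.mono inter_subset_left)
    (hf₂.mono inter_subset_left)
  have hsub : closedBall (0 : ℂ) 1 ⊆ f '' (U ∩ V) := by
    rw [← closure_ball _ one_ne_zero, ← hf₃]
    refine (closure_minimal (image_mono subset_closure) ((hΩ₂.isCompact_closure
      ).image_of_continuousOn (hf₁.continuousOn.mono hΩU)).isClosed).trans ?_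
    exact image_mono (subset_inter hΩU hΩV)
  obtain ⟨δ, hδ, hδ2⟩ := (isCompact_closedBall (0 : ℂ) 1).exists_cthickening_subset_open hio hsub
  rw [cthickening_closedBall hδ.le zero_le_one] at hδ2
  have hvG : ∀ c d, ContinuousOn (fun t => v (G t) c d) (sphere 0 1) := fun c d =>
    (hv c d).continuousOn.comp (hG₁.continuousOn.mono hSE) fun t ht => hΩV (hGcl t ht)
  have hform : ∀ a b c d, Polynomial.aeval (S * A * S⁻¹) (q c d) a b =
      Real.circleAverage (fun t => L t a b * v (G t) c d) 0 1 := by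
    intro a b c d
    have hgd : DifferentiableOn ℂ (fun ζ => v (F ζ) c d) (f '' (U ∩ V)) := by
      refine (hv c d).comp hF ?_
      rintro _ ⟨z, hz, rfl⟩
      rw [hFl z hz]
      exact hz.2
    obtain ⟨t, ht⟩ := taylor_approx (by linarith : 0 < δ + 1) (hgd.mono hδ2)
    have h1 := hfc t (fun ζ => v (F ζ) c d) (fun z => v z c d) (q c d)
      (ht.mono (ball_subset_ball (by linarith)))
      (fun z hz => by rw [hFl z ⟨hΩU' hz, hΩV (subset_closure hz)⟩]) (hq c d)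
    have h2 := ((continuous_apply_apply a b).tendsto _).comp ((hconj.tendsto _).comp h1)
    have hgs : ContinuousOn (fun ζ => v (F ζ) c d) (sphere 0 1) :=
      hgd.continuousOn.mono (sphere_subset_closedBall.trans hsub)
    have hP' := hPc' a b
    have h3 : Tendsto (fun N => Real.circleAverage (fun ζ => (t N).eval ζ * P ζ a b) 0 1) atTop
        (𝓝 (Real.circleAverage (fun ζ => v (F ζ) c d * P ζ a b) 0 1)) := by
      refine avg_tendsto (fun N => (t N).continuous.continuousOn.mul hP') ?_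
      rw [← tendstoLocallyUniformlyOn_iff_tendstoUniformlyOn_of_compact (isCompact_sphere 0 1)]
      refine TendstoLocallyUniformlyOn.mul₀ (ht.mono (sphere_sub_ball (by linarith))) ?_ hgs hP'
      exact fun u hu x _ => ⟨univ, univ_mem, Eventually.of_forall fun _ _ _ =>
        refl_mem_uniformity hu⟩
    have h4 : ∀ N, Real.circleAverage (fun ζ => (t N).eval ζ * P ζ a b) 0 1 =
        (S * Polynomial.aeval T (t N) * S⁻¹) a b := by
      intro N
      have hc := (t N).continuous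
      rw [← conj_aeval hS1 hS2, ← hX, ← hPt, ← avg_entry (by fun_prop)]
      rfl
    simp only [h4] at h3
    have h5 := tendsto_nhds_unique h2 h3
    rw [conj_aeval hS1 hS2]
    refine Eq.trans h5 ?_
    rw [← hwh (fun ζ => v (F ζ) c d * P ζ a b) (hgs.mul hP')]
    refine avg_congr one_pos fun t ht => ?_
    simp only [hL, Matrix.smul_apply, smul_eq_mul]
    rw [hFl _ ⟨hΩU (hGcl t ht), hΩV (hGcl t ht)⟩]
    ring
  refine ⟨fun a b c d => ?_, fun M hM => ?_⟩
  · rw [hform, ← avg_eq]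
    simp [circleMap]
  · set V' : Matrix (Fin n × Fin m) (Fin n × Fin m) ℂ :=
      Matrix.of fun i j => Polynomial.aeval (S * A * S⁻¹) (q i.2 j.2) i.1 j.1 with hV'
    have h1 : ‖V'‖ ≤ M := norm_avg_kron hLp hLc' hL1 (w := fun t => v (G t)) hvG
      (fun t ht => hM _ (hGcl t ht)) fun i j => hform _ _ _ _
    have h2 : ‖S ⊗ₖ (1 : Matrix (Fin m) (Fin m) ℂ)‖ ≤ Real.sqrt κsq := by
      refine norm_kron_one (Real.sqrt_nonneg _) (norm_le_of_psd (Real.sqrt_nonneg _) ?_)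
      rw [Real.sq_sqrt (by linarith), hSh, hS₂]
      exact hH2
    have h3 : ‖S⁻¹ ⊗ₖ (1 : Matrix (Fin m) (Fin m) ℂ)‖ ≤ 1 := by
      refine norm_kron_one zero_le_one (norm_le_of_psd zero_le_one ?_)
      have key := hH1.conjTranspose_mul_mul_same S⁻¹
      refine Eq.mp (congrArg _ ?_) key
      rw [hSh', ← hS₂, mul_sub, sub_mul, ← mul_assoc, hS2, one_mul, hS1]
      simp
    have h4 : (Matrix.of fun (i : Fin n × Fin m) (j : Fin n × Fin m) =>
        Polynomial.aeval A (q i.2 j.2) i.1 j.1) =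
        S⁻¹ ⊗ₖ (1 : Matrix (Fin m) (Fin m) ℂ) * V' * S ⊗ₖ (1 : Matrix (Fin m) (Fin m) ℂ) := by
      ext ⟨a, c⟩ ⟨b, d⟩
      have e : Polynomial.aeval A (q c d) = S⁻¹ * Polynomial.aeval (S * A * S⁻¹) (q c d) * S := by
        rw [conj_aeval hS1 hS2]
        simp only [← mul_assoc]
        rw [hS2, one_mul, mul_assoc, hS2, mul_one]
      rw [Matrix.of_apply, e]
      simp [hV', Matrix.mul_apply, Fintype.sum_prod_type, Matrix.one_apply]
    rw [← Matrix.cstar_norm_def, h4]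
    have hM0 : 0 ≤ M := (norm_nonneg _).trans h1
    calc _ ≤ ‖S⁻¹ ⊗ₖ (1 : Matrix (Fin m) (Fin m) ℂ)‖ * ‖V'‖ *
          ‖S ⊗ₖ (1 : Matrix (Fin m) (Fin m) ℂ)‖ :=
          (norm_mul_le _ _).trans (mul_le_mul_of_nonneg_right (norm_mul_le _ _) (norm_nonneg _))
      _ ≤ 1 * M * Real.sqrt κsq := by gcongr
      _ = Real.sqrt κsq * M := by ring

end Crest.Agent.S0181
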