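import Crest.Statements.S0275
import Crest.Agent.DF.Fin

set_option autoImplicit false
open Crest Crest.AlgebraR

namespace Crest.Agent.S0275

/-- Let m be the central binomial coefficient (1200 choose 600) and p the least divisor greater than one of (m!)^2 + 1. Then p is an odd prime, and there are a field with p^4 elements, a finitely generated group containing a non-identity element of finite order, and two elements a and b of the group algebra of that group over that field with a * b = 1 but b * a ≠ 1. -/
theorem result :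
    Nat.Prime (Nat.minFac ((Nat.choose 1200 600).factorial ^ 2 + 1)) ∧
    Odd (Nat.minFac ((Nat.choose 1200 600).factorial ^ 2 + 1)) ∧
    ∃ (K : Type) (_ : Field K) (G : Type) (_ : Group G),
      Nat.card K = Nat.minFac ((Nat.choose 1200 600).factorial ^ 2 + 1) ^ 4 ∧
      Group.FG G ∧ (∃ g : G, g ≠ 1 ∧ IsOfFinOrder g) ∧
      ∃ a b : MonoidAlgebra K G, a * b = 1 ∧ b * a ≠ 1 := by
  have key : ∀ m : ℕ, 64 ≤ m → (Nat.minFac (m.factorial ^ 2 + 1)).Prime ∧
      64 ≤ Nat.minFac (m.factorial ^ 2 + 1) := by
    intro m hm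
    have h0 : m.factorial ^ 2 + 1 ≠ 1 := by
      have := pow_pos (Nat.factorial_pos m) 2
      omega
    have hp := Nat.minFac_prime h0
    refine ⟨hp, ?_⟩
    by_contra hlt
    have h1 : Nat.minFac (m.factorial ^ 2 + 1) ∣ m.factorial ^ 2 :=
      dvd_pow (Nat.dvd_factorial hp.pos (by omega)) (by norm_num)
    exact hp.one_lt.ne' (Nat.dvd_one.1 ((Nat.dvd_add_right h1).1 (Nat.minFac_dvd _)))
  have hm : 64 ≤ Nat.choose 1200 600 :=
    le_trans (by norm_num) (Nat.choose_le_middle 1 1200)
  generalize Nat.choose 1200 600 = m at hm ⊢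
  obtain ⟨hp, h64⟩ := key m hm
  generalize Nat.minFac (m.factorial ^ 2 + 1) = p at hp h64 ⊢
  have : Fact p.Prime := ⟨hp⟩
  obtain ⟨G, _, h1, h2, h3⟩ := Crest.Agent.DF.exists_odd p h64 (GaloisField p 4)
  exact ⟨hp, hp.odd_of_ne_two (by omega), GaloisField p 4, inferInstance, G, inferInstance,
    GaloisField.card p 4 (by norm_num), h1, h2, h3⟩

end Crest.Agent.S0275
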