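import Crest.Statements.S0323
import Crest.Agent.Edit.Main

set_option autoImplicit false
open Crest.GeometryTopology.EditDistance
open Crest Crest.GeometryTopology Crest.GeometryTopology.EditDistance

namespace Crest.Agent.S0323

theorem g_lt {u : ℕ} (hu : 1 ≤ u) : u < (81 * u ^ 2) ^ (25 * u ^ 2) :=
  lt_of_le_of_lt (by nlinarith) (Nat.lt_pow_self (by nlinarith))

theorem g_le {t : ℕ} (ht : 40 ≤ t) :
    (81 * (t + 1) ^ 2) ^ (25 * (t + 1) ^ 2) ≤ (t ^ 4) ^ (100 * t ^ 2) := by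
  have h1 : 25 * (t + 1) ^ 2 ≤ 100 * t ^ 2 := by nlinarith
  have h2 : 9 * (t + 1) ≤ t ^ 2 := by nlinarith
  have h3 : 81 * (t + 1) ^ 2 ≤ t ^ 4 :=
    calc 81 * (t + 1) ^ 2 = (9 * (t + 1)) ^ 2 := by ring
      _ ≤ (t ^ 2) ^ 2 := by gcongr
      _ = _ := by ring
  exact (Nat.pow_le_pow_left h3 _).trans (Nat.pow_le_pow_right (by positivity) h1)

theorem final {t d : ℕ} {D : ℝ} (ht40 : 40 ≤ t) (hd2 : 2 ≤ d)
    (h3 : Real.log d ≤ 400 * t ^ 2 * Real.log t) (hD : 0 ≤ D)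
    (h1 : (t : ℝ) ^ t ≤ D * (21000000 * t ^ 7)) :
    Real.exp (1 / 100 * Real.sqrt (Real.log d * Real.log (Real.log d))) ≤ D := by
  have ht' : (40 : ℝ) ≤ t := by exact_mod_cast ht40
  have hl : 0 < Real.log t := Real.log_pos (by linarith)
  have hld : 0 < Real.log d := Real.log_pos (by exact_mod_cast hd2)
  have h4 : Real.log (Real.log d) ≤ 6 * Real.log t := by
    have h5 : Real.log t ≤ t := (Real.log_le_sub_one_of_pos (by linarith)).trans (by linarith)
    have h6 : Real.log d ≤ (t : ℝ) ^ 6 := by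
      calc Real.log d ≤ 400 * t ^ 2 * Real.log t := h3
        _ ≤ 40 ^ 3 * t ^ 2 * t := by gcongr; norm_num
        _ ≤ t ^ 3 * t ^ 2 * t := by gcongr
        _ = _ := by ring
    refine (Real.log_le_log hld h6).trans (le_of_eq ?_)
    rw [Real.log_pow]; norm_num
  have h5 : Real.sqrt (Real.log d * Real.log (Real.log d)) ≤ 50 * (t * Real.log t) := by
    refine Real.sqrt_le_iff.2 ⟨by positivity, ?_⟩
    calc _ ≤ Real.log d * (6 * Real.log t) := by gcongr
      _ ≤ 400 * t ^ 2 * Real.log t * (6 * Real.log t) := by gcongr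
      _ = 2400 * (t * Real.log t) ^ 2 := by ring
      _ ≤ 2500 * (t * Real.log t) ^ 2 := by gcongr; norm_num
      _ = _ := by ring
  obtain ⟨E, hE⟩ : ∃ E, E = Real.exp (t * Real.log t / 2) := ⟨_, rfl⟩
  have hE0 : 0 < E := hE ▸ Real.exp_pos _
  have h6 : E * E = (t : ℝ) ^ t := by
    rw [hE, ← Real.exp_add, add_halves, ← Real.log_pow, Real.exp_log (by positivity)]
  have h7 : 21000000 * (t : ℝ) ^ 7 ≤ E := by
    have h8 : 24 * Real.log t ≤ t * Real.log t := by gcongr; linarith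
    calc 21000000 * (t : ℝ) ^ 7 ≤ 40 ^ 5 * (t : ℝ) ^ 7 := by gcongr; norm_num
      _ ≤ (t : ℝ) ^ 5 * t ^ 7 := by gcongr
      _ = Real.exp (12 * Real.log t) := by
        rw [← pow_add, show (12 : ℝ) = (12 : ℕ) by norm_num, ← Real.log_pow,
          Real.exp_log (by positivity)]
      _ ≤ E := hE ▸ Real.exp_le_exp.2 (by linarith)
  refine le_trans (Real.exp_le_exp.2 (by linarith : _ ≤ t * Real.log t / 2)) ?_
  rw [← hE]
  refine le_of_mul_le_mul_right ?_ hE0
  rw [h6]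
  exact h1.trans (by gcongr)


/-- There are constants `c > 0` and `d₀` such that for every `d ≥ d₀` some length `n ≤ d` has the following property: any map `f` from binary words into real `ℓ¹` that, after a common rescaling `s > 0`, satisfies `s · ed(x,y) ≤ ‖f x - f y‖ ≤ D · s · ed(x,y)` for all distinct binary words `x`, `y` of length exactly `n`, has `D ≥ exp (c √(log d · log log d))`. Here `ed` is unit-cost edit distance (insertions, deletions, substitutions, intermediate words of any length). -/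
theorem result :
    ∃ c : ℝ, 0 < c ∧ ∃ d₀ : ℕ, ∀ d : ℕ, d₀ ≤ d → ∃ n : ℕ, n ≤ d ∧
      ∀ (f : List Bool → lp (fun _ : ℕ => ℝ) 1) (s D : ℝ), 0 < s →
        (∀ x y : List Bool, x.length = n → y.length = n → x ≠ y →
          s * (editDist x y : ℝ) ≤ ‖f x - f y‖ ∧ ‖f x - f y‖ ≤ D * s * (editDist x y : ℝ)) →
        Real.exp (c * Real.sqrt (Real.log d * Real.log (Real.log d))) ≤ D := by
  obtain ⟨t0, ht0⟩ : ∃ t0 : ℕ, 40 ≤ t0 := ⟨40, le_rfl⟩
  refine ⟨1 / 100, by norm_num, (81 * t0 ^ 2) ^ (25 * t0 ^ 2), fun d hd => ?_⟩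
  have hex : ∃ u, t0 ≤ u ∧ d < (81 * u ^ 2) ^ (25 * u ^ 2) :=
    ⟨d + t0, Nat.le_add_left _ _, (Nat.le_add_right _ _).trans_lt
      (g_lt (le_trans (le_trans (by norm_num) ht0) (Nat.le_add_left _ _)))⟩
  classical
  obtain ⟨hu1, hu2⟩ := Nat.find_spec hex
  have hu3 : Nat.find hex ≠ t0 := fun h => by rw [h] at hu2; exact absurd hd (not_le.2 hu2)
  have hu4 : t0 < Nat.find hex := lt_of_le_of_ne hu1 hu3.symm
  obtain ⟨t, ht⟩ := Nat.exists_eq_add_one.2 ((Nat.zero_le _).trans_lt hu4)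
  have ht0' : t0 ≤ t := Nat.le_of_lt_succ (by rw [ht] at hu4; exact hu4)
  have ht40 : 40 ≤ t := ht0.trans ht0'
  have ht1 : (81 * t ^ 2) ^ (25 * t ^ 2) ≤ d :=
    not_lt.1 fun h => Nat.find_min hex (by rw [ht]; exact Nat.lt_succ_self t) ⟨ht0', h⟩
  rw [ht] at hu2
  have ht2 : 1 ≤ t := le_trans (by norm_num) ht40
  obtain ⟨n, hn, h⟩ := Edit.param t ht2
  refine ⟨n, hn.trans ht1, fun f s D hs hf => ?_⟩
  obtain ⟨hD, h1⟩ := h f s D hs hf
  have hd2 : 2 ≤ d := le_trans (le_trans (by norm_num) ht40) ((g_lt ht2).le.trans ht1)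
  refine final ht40 hd2 ?_ hD h1
  have : (d : ℝ) ≤ (t ^ 4) ^ (100 * t ^ 2) := by exact_mod_cast hu2.le.trans (g_le ht40)
  refine (Real.log_le_log (Nat.cast_pos.2 (lt_of_lt_of_le two_pos hd2)) this).trans (le_of_eq ?_)
  rw [Real.log_pow, Real.log_pow]; push_cast; ring

end Crest.Agent.S0323
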