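import Crest.Statements.S0358
import Crest.Agent.DR.Core
import Crest.Agent.DR.Reduce

set_option autoImplicit false
open MeasureTheory
open scoped ENNReal
universe u
open Crest Crest.GeometryTopology

namespace Crest.Agent.S0358

/-- Fix an exponent `1 < p < ∞` with `p ≠ 2` and a distortion `D > 1`, and put `γ = 2 - p` if `p < 2` and `γ = 1 - 2/p` if `p > 2`. There is a constant `C`, depending only on `p` and `D`, such that for every `n ≥ 2`, every `n` distinct points of any real `L^p` space can be mapped to points of the `d`-dimensional real `ℓ^p` space for some `d ≤ exp (C (log n)^γ)`, so that after a common rescaling by some `s > 0` all pairwise distances are preserved up to the factor `D`. -/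
theorem result
    (p : ℝ≥0∞) [Fact (1 ≤ p)] (hp1 : 1 < p) (hptop : p ≠ ⊤) (hp2 : p ≠ 2)
    (D : ℝ) (hD : 1 < D) :
    ∃ C : ℝ, ∀ (n : ℕ), 2 ≤ n →
      ∀ (α : Type u) [MeasurableSpace α] (μ : Measure α) (x : Fin n → Lp ℝ p μ),
        Function.Injective x →
        ∃ d : ℕ, (d : ℝ) ≤ Real.exp (C * Real.log n ^ (if p.toReal < 2 then 2 - p.toReal else 1 - 2 / p.toReal)) ∧
          ∃ (y : Fin n → PiLp p (fun _ : Fin d => ℝ)) (s : ℝ), 0 < s ∧
            ∀ i j, s * ‖x i - x j‖ ≤ ‖y i - y j‖ ∧ ‖y i - y j‖ ≤ D * s * ‖x i - x j‖ := by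
  have hq1 : 1 < p.toReal := by
    have := (ENNReal.toReal_lt_toReal ENNReal.one_ne_top hptop).2 hp1
    simpa using this
  have hq2 : p.toReal ≠ 2 := by
    intro h
    apply hp2
    rw [← ENNReal.ofReal_toReal hptop, h]; simp
  set q := p.toReal with hq
  have hq0 : 0 < q := by linarith
  have hDq : 1 < D ^ q := Real.one_lt_rpow hD hq0
  set t : ℝ := min 1 ((D ^ q - 1) / 3) with ht
  have ht0 : 0 < t := lt_min one_pos (by linarith)
  have ht1 : t ≤ 1 := min_le_left _ _
  have ht2 : 3 * t ≤ D ^ q - 1 := by have := min_le_right 1 ((D ^ q - 1) / 3); linarith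
  obtain ⟨C, hC⟩ := DR.core hq1 hq2 ht0
  refine ⟨C, fun n hn α _ μ x hx => ?_⟩
  obtain ⟨Ω, iΩ, h, H⟩ := DR.reduce hptop (by omega) x hx (ε := t / 8) (by linarith)
  have hb0 : ∀ i j, 0 ≤ ∑ ω, |h ω i - h ω j| ^ q := fun i j =>
    Finset.sum_nonneg fun ω _ => Real.rpow_nonneg (abs_nonneg _) _
  have hε : 0 < 1 - 2 * (t / 8) := by linarith
  obtain ⟨d, hd, G, c, hc, hG⟩ := hC n hn Ω
    (fun e => (∑ ω, |h ω e.1 - h ω e.2| ^ q) ^ (1 / q)) h
    (fun e => Real.rpow_nonneg (hb0 _ _) _)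
    (fun i j => by simp only [abs_sub_comm (h _ i)])
    (fun i j hij => Real.rpow_pos_of_pos (lt_of_lt_of_le (mul_pos hε (Real.rpow_pos_of_pos
      (norm_pos_iff.2 (sub_ne_zero.2 fun h => hij (hx h))) _)) (H i j).1) _)
    (fun i j => by
      rw [← Real.rpow_mul (hb0 i j), one_div_mul_cancel hq0.ne', Real.rpow_one])
  have hs0 : 0 < c * (1 - 2 * (t / 8)) := mul_pos hc hε
  refine ⟨d, hd, fun i => WithLp.toLp p (fun l => G l i), (c * (1 - 2 * (t / 8))) ^ (1 / q),
    Real.rpow_pos_of_pos hs0 _, fun i j => ?_⟩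
  by_cases hij : i = j
  · subst hij; simp
  have hs : ((c * (1 - 2 * (t / 8))) ^ (1 / q)) ^ q = c * (1 - 2 * (t / 8)) := by
    rw [← Real.rpow_mul hs0.le, one_div_mul_cancel hq0.ne', Real.rpow_one]
  have hsp := (Real.rpow_pos_of_pos hs0 (1 / q)).le
  have hy : ‖(WithLp.toLp p (fun l => G l i) : PiLp p (fun _ : Fin d => ℝ))
      - WithLp.toLp p (fun l => G l j)‖ ^ q = ∑ l, |G l i - G l j| ^ q := by
    rw [PiLp.norm_eq_sum hq0, ← Real.rpow_mul (Finset.sum_nonneg fun l _ =>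
      Real.rpow_nonneg (norm_nonneg _) _), one_div_mul_cancel hq0.ne', Real.rpow_one]
    rfl
  obtain ⟨g1, g2⟩ := hG i j hij
  simp only [← Real.rpow_mul (hb0 i j), one_div_mul_cancel hq0.ne', Real.rpow_one] at g1 g2
  obtain ⟨k1, k2⟩ := H i j
  have hN : 0 ≤ ‖x i - x j‖ ^ q := Real.rpow_nonneg (norm_nonneg _) _
  constructor
  · rw [← Real.rpow_le_rpow_iff (mul_nonneg hsp (norm_nonneg _)) (norm_nonneg _) hq0, hy,
      Real.mul_rpow hsp (norm_nonneg _), hs]
    have := mul_le_mul_of_nonneg_left k1 hc.le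
    linarith
  · rw [← Real.rpow_le_rpow_iff (norm_nonneg _)
      (mul_nonneg (mul_nonneg (by linarith) hsp) (norm_nonneg _)) hq0, hy,
      Real.mul_rpow (mul_nonneg (by linarith) hsp) (norm_nonneg _),
      Real.mul_rpow (by linarith) hsp, hs]
    have a1 := mul_le_mul_of_nonneg_left k2 (show 0 ≤ (1 + t) * c by positivity)
    have a2 : (1 + t) * (1 + 2 * (t / 8)) ≤ D ^ q * (1 - 2 * (t / 8)) := by
      have b1 : 1 + 2 * (t / 8) ≤ (1 + t) * (1 - 2 * (t / 8)) := by nlinarith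
      have b2 : (1 + t) * (1 + t) ≤ D ^ q := by nlinarith
      have b3 := mul_le_mul_of_nonneg_left b1 (show 0 ≤ 1 + t by linarith)
      have b4 := mul_le_mul_of_nonneg_right b2 hε.le
      linarith
    have a3 := mul_le_mul_of_nonneg_right a2 (mul_nonneg hc.le hN)
    linarith

end Crest.Agent.S0358
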