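import Crest.Statements.S0359
import Crest.Agent.DR.Reduce
import Crest.Agent.DR.Ineq

set_option autoImplicit false
open MeasureTheory
open scoped ENNReal
open Crest Crest.GeometryTopology

namespace Crest.Agent.S0359

lemma mid_le {q : ℝ} (hq : 1 < q) (a b : ℝ) : |a - b| ^ q ≤ 2 ^ q * ((|a| ^ q + |b| ^ q) / 2) := by
  have h := DR.conv2 hq.le (w1 := 1 / 2) (w2 := 1 / 2) (by norm_num) (by norm_num) (by norm_num)
    (2 * a) (2 * (-b))
  rw [show 1 / 2 * (2 * a) + 1 / 2 * (2 * (-b)) = a - b by ring, abs_mul, abs_mul, abs_two,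
    abs_neg, Real.mul_rpow zero_le_two (abs_nonneg _),
    Real.mul_rpow zero_le_two (abs_nonneg _)] at h
  linarith

lemma mid_lt {q : ℝ} (hq : 1 < q) {a b : ℝ} (h : a + b ≠ 0) :
    |a - b| ^ q < 2 ^ q * ((|a| ^ q + |b| ^ q) / 2) := by
  have h2 : (0 : ℝ) < 2 ^ q := Real.rpow_pos_of_pos two_pos _
  by_cases hab : |a| = |b|
  · rcases abs_eq_abs.1 hab with h1 | h1
    · have : a ≠ 0 := by intro h0; apply h; rw [← h1, h0, add_zero]
      have := Real.rpow_pos_of_pos (abs_pos.2 this) q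
      rw [← h1, sub_self, abs_zero, Real.zero_rpow (by linarith)]
      positivity
    · exact absurd (by rw [h1]; ring) h
  · have h3 := (strictConvexOn_rpow hq).2 (abs_nonneg a) (abs_nonneg b) hab
      (show (0 : ℝ) < 1 / 2 by norm_num) (show (0 : ℝ) < 1 / 2 by norm_num) (by norm_num)
    simp only [smul_eq_mul] at h3
    have h4 : |a - b| ≤ 2 * (1 / 2 * |a| + 1 / 2 * |b|) := by linarith [abs_sub a b]
    have h5 := Real.rpow_le_rpow (abs_nonneg _) h4 (by linarith : 0 ≤ q)
    rw [Real.mul_rpow zero_le_two (by positivity)] at h5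
    have h6 := mul_lt_mul_of_pos_left h3 h2
    linarith

noncomputable def cl (q a b : ℝ) : ℝ := |a + b| ^ q + |a - b| ^ q - 2 * |a| ^ q - 2 * |b| ^ q

lemma cl_zero {q : ℝ} (hq : 0 < q) {a b : ℝ} (h : a * b = 0) : cl q a b = 0 := by
  unfold cl
  rcases mul_eq_zero.1 h with h | h <;> simp [h, Real.zero_rpow hq.ne'] <;> ring

lemma cl_pos {q : ℝ} (hq : 2 < q) {a b : ℝ} (h : a * b ≠ 0) : 0 < cl q a b := by
  have ha : 0 < a ^ 2 := pow_pos (pos_of_ne (left_ne_zero_of_mul h)) 1 |>.trans_le (by simp)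
  have hb : 0 < b ^ 2 := pow_pos (pos_of_ne (right_ne_zero_of_mul h)) 1 |>.trans_le (by simp)
  unfold cl
  simp only [DR.abs_rpow_eq]
  have h1 := (convexOn_rpow (p := q / 2) (by linarith)).2
    (sq_nonneg (a + b)) (sq_nonneg (a - b)) (show (0 : ℝ) ≤ 1 / 2 by norm_num)
    (show (0 : ℝ) ≤ 1 / 2 by norm_num) (by norm_num)
  simp only [smul_eq_mul] at h1
  rw [show 1 / 2 * (a + b) ^ 2 + 1 / 2 * (a - b) ^ 2 = a ^ 2 + b ^ 2 by ring] at h1
  have e : ∀ {t : ℝ}, 0 < t → t ^ (q / 2) = t * t ^ (q / 2 - 1) := by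
    intro t ht
    rw [mul_comm, ← Real.rpow_add_one ht.ne']; congr 1; ring
  have h2 := Real.rpow_lt_rpow ha.le (show a ^ 2 < a ^ 2 + b ^ 2 by linarith)
    (show 0 < q / 2 - 1 by linarith)
  have h3 := Real.rpow_lt_rpow hb.le (show b ^ 2 < a ^ 2 + b ^ 2 by linarith)
    (show 0 < q / 2 - 1 by linarith)
  rw [e (show 0 < a ^ 2 + b ^ 2 by linarith)] at h1
  rw [e ha, e hb]
  nlinarith [mul_lt_mul_of_pos_left h2 ha, mul_lt_mul_of_pos_left h3 hb]
where
  pos_of_ne {t : ℝ} (h : t ≠ 0) : 0 < t ^ 2 := by positivity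

lemma cl_neg {q : ℝ} (hq0 : 0 < q) (hq : q < 2) {a b : ℝ} (h : a * b ≠ 0) : cl q a b < 0 := by
  have ha : 0 < a ^ 2 := by have := left_ne_zero_of_mul h; positivity
  have hb : 0 < b ^ 2 := by have := right_ne_zero_of_mul h; positivity
  unfold cl
  simp only [DR.abs_rpow_eq]
  have h1 := (Real.concaveOn_rpow (p := q / 2) (by linarith) (by linarith)).2
    (sq_nonneg (a + b)) (sq_nonneg (a - b)) (show (0 : ℝ) ≤ 1 / 2 by norm_num)
    (show (0 : ℝ) ≤ 1 / 2 by norm_num) (by norm_num)
  simp only [smul_eq_mul] at h1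
  rw [show 1 / 2 * (a + b) ^ 2 + 1 / 2 * (a - b) ^ 2 = a ^ 2 + b ^ 2 by ring] at h1
  have e : ∀ {t : ℝ}, 0 < t → t ^ (q / 2) = t * t ^ (q / 2 - 1) := by
    intro t ht
    rw [mul_comm, ← Real.rpow_add_one ht.ne']; congr 1; ring
  have h2 := Real.rpow_lt_rpow_of_neg ha (show a ^ 2 < a ^ 2 + b ^ 2 by linarith)
    (show q / 2 - 1 < 0 by linarith)
  have h3 := Real.rpow_lt_rpow_of_neg hb (show b ^ 2 < a ^ 2 + b ^ 2 by linarith)
    (show q / 2 - 1 < 0 by linarith)
  rw [e (show 0 < a ^ 2 + b ^ 2 by linarith)] at h1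
  rw [e ha, e hb]
  nlinarith [mul_lt_mul_of_pos_left h2 ha, mul_lt_mul_of_pos_left h3 hb]

lemma disj_of_sum {q : ℝ} (hq0 : 0 < q) (hq : q ≠ 2) {d : ℕ} (A B : Fin d → ℝ)
    (h : ∑ l, cl q (A l) (B l) = 0) (l : Fin d) : A l * B l = 0 := by
  by_contra hne
  rcases lt_or_gt_of_ne hq with h2 | h2
  · have : ∑ l, cl q (A l) (B l) < ∑ _l : Fin d, (0 : ℝ) :=
      Finset.sum_lt_sum (fun i _ => by
        by_cases h0 : A i * B i = 0
        · exact (cl_zero hq0 h0).le
        · exact (cl_neg hq0 h2 h0).le) ⟨l, Finset.mem_univ l, cl_neg hq0 h2 hne⟩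
    simp [h] at this
  · have : ∑ _l : Fin d, (0 : ℝ) < ∑ l, cl q (A l) (B l) :=
      Finset.sum_lt_sum (fun i _ => by
        by_cases h0 : A i * B i = 0
        · exact (cl_zero hq0 h0).ge
        · exact (cl_pos h2 h0).le) ⟨l, Finset.mem_univ l, cl_pos h2 hne⟩
    simp [h] at this

/-- indicator of a row or of a column -/
def ind {m : ℕ} (a : Fin m ⊕ Fin m) (ω : Fin m × Fin m) : ℝ :=
  match a with
  | Sum.inl i => if ω.1 = i then 1 else 0
  | Sum.inr j => if ω.2 = j then 1 else 0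

def val {m r : ℕ} (a : ((Fin m ⊕ Fin m) × Bool) ⊕ Fin r) (ω : Fin m × Fin m) : ℝ :=
  match a with
  | Sum.inl (c, true) => ind c ω
  | Sum.inl (c, false) => - ind c ω
  | Sum.inr t => 2 * (t : ℕ)

lemma ind_one {m : ℕ} (a : Fin m ⊕ Fin m) : ∃ ω, ind a ω = 1 := by
  rcases a with i | i <;> exact ⟨(i, i), by simp [ind]⟩

lemma ind_nonneg {m : ℕ} (a : Fin m ⊕ Fin m) (ω : Fin m × Fin m) : 0 ≤ ind a ω := by
  rcases a with i | i <;> simp only [ind] <;> split_ifs <;> norm_num

lemma ind_inj {m : ℕ} (hm : 2 ≤ m) : Function.Injective (ind (m := m)) := by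
  have : Nontrivial (Fin m) := Fin.nontrivial_iff_two_le.2 hm
  rintro (i | i) (j | j) h
  · have := congrFun h (i, i)
    simp only [ind, if_true] at this
    split_ifs at this with h1
    · rw [h1]
    · norm_num at this
  · obtain ⟨k, hk⟩ := exists_ne j
    have := congrFun h (i, k)
    simp [ind, hk] at this
  · obtain ⟨k, hk⟩ := exists_ne j
    have := congrFun h (k, i)
    simp [ind, hk] at this
  · have := congrFun h (i, i)
    simp only [ind, if_true] at this
    split_ifs at this with h1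
    · rw [h1]
    · norm_num at this

lemma val_inj {m r : ℕ} (hm : 2 ≤ m) : Function.Injective (val (m := m) (r := r)) := by
  have key : ∀ t : ℕ, (2 * (t : ℝ) ≠ 1) ∧ (2 * (t : ℝ) ≠ -1) := by
    intro t
    refine ⟨fun h => ?_, fun h => ?_⟩
    · have : 2 * t = 1 := by exact_mod_cast h
      omega
    · have : (0 : ℝ) ≤ t := Nat.cast_nonneg t
      linarith
  rintro (⟨c, b⟩ | t) (⟨c', b'⟩ | t') h
  · obtain ⟨ω, hω⟩ := ind_one c
    have h1 := congrFun h ω
    have h2 := ind_nonneg c' ω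
    cases b <;> cases b' <;> simp only [val, hω] at h1
    · have : ind c = ind c' := by
        funext ω; have := congrFun h ω; simp only [val] at this; linarith
      rw [ind_inj hm this]
    · linarith
    · linarith
    · have : ind c = ind c' := by
        funext ω; have := congrFun h ω; simpa only [val] using this
      rw [ind_inj hm this]
  · obtain ⟨ω, hω⟩ := ind_one c
    have h1 := congrFun h ω
    cases b <;> simp only [val, hω] at h1
    · exact absurd h1.symm (key _).2
    · exact absurd h1.symm (key _).1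
  · obtain ⟨ω, hω⟩ := ind_one c'
    have h1 := congrFun h ω
    cases b' <;> simp only [val, hω] at h1
    · exact absurd h1 (key _).2
    · exact absurd h1 (key _).1
  · have h1 := congrFun h (⟨0, by omega⟩, ⟨0, by omega⟩)
    simp only [val] at h1
    have : (t : ℕ) = t' := by
      have : ((t : ℕ) : ℝ) = (t' : ℕ) := by linarith
      exact_mod_cast this
    rw [Fin.ext this]

/-- Fix an exponent 1 < p < ∞ with p ≠ 2 and n ≥ 9. If d is a dimension such that every n distinct points of any real L^p space can be mapped to the d-dimensional real ℓ^p space with all pairwise distances multiplied by one common factor s > 0 (an isometric embedding up to scaling), then ⌊(n − 1)/4⌋² ≤ d. -/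
theorem result
    (p : ℝ≥0∞) [Fact (1 ≤ p)] (hp1 : 1 < p) (hptop : p ≠ ⊤) (hp2 : p ≠ 2)
    (n : ℕ) (hn : 9 ≤ n) (d : ℕ)
    (hd : ∀ (α : Type) [MeasurableSpace α] (μ : Measure α) (x : Fin n → Lp ℝ p μ),
      Function.Injective x →
      ∃ (y : Fin n → PiLp p (fun _ : Fin d => ℝ)) (s : ℝ), 0 < s ∧
        ∀ i j, ‖y i - y j‖ = s * ‖x i - x j‖) :
    ((n - 1) / 4) ^ 2 ≤ d := by
  classical
  have hq1 : 1 < p.toReal := by
    have := (ENNReal.toReal_lt_toReal ENNReal.one_ne_top hptop).2 hp1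
    simpa using this
  have hq2 : p.toReal ≠ 2 := by
    intro h
    apply hp2
    rw [← ENNReal.ofReal_toReal hptop, h]; simp
  set q := p.toReal with hq
  have hq0 : 0 < q := by linarith
  set m := (n - 1) / 4 with hm'
  have hm : 2 ≤ m := by omega
  have hr : 0 < n - 4 * m := by omega
  let e : (((Fin m ⊕ Fin m) × Bool) ⊕ Fin (n - 4 * m)) ≃ Fin n :=
    Fintype.equivFinOfCardEq (by simp; omega)
  let _ : MeasurableSpace (Fin m × Fin m) := ⊤
  have : DiscreteMeasurableSpace (Fin m × Fin m) := ⟨fun _ => trivial⟩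
  let F : (Fin m × Fin m → ℝ) → Lp ℝ p (Measure.count : Measure (Fin m × Fin m)) :=
    fun f => MemLp.toLp f MemLp.of_discrete
  have hF : ∀ f ω, F f ω = f ω := fun f =>
    Measure.ae_count_iff.1 (MemLp.coeFn_toLp (f := f) MemLp.of_discrete)
  obtain ⟨y, s, hs, hy⟩ := hd (Fin m × Fin m) Measure.count (fun k => F (val (e.symm k))) (by
    intro k k' h
    apply e.symm.injective
    apply val_inj hm
    funext ω
    rw [← hF (val (e.symm k)), ← hF (val (e.symm k'))]
    exact congrArg (fun g : Lp ℝ p (Measure.count : Measure (Fin m × Fin m)) => g ω) h)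
  have hdist : ∀ a b, ∑ l, |y (e a) l - y (e b) l| ^ q = s ^ q * ∑ ω, |val a ω - val b ω| ^ q := by
    intro a b
    have h1 : ‖y (e a) - y (e b)‖ ^ q = ∑ l, |y (e a) l - y (e b) l| ^ q := by
      rw [PiLp.norm_eq_sum hq0, ← Real.rpow_mul (Finset.sum_nonneg fun l _ =>
        Real.rpow_nonneg (norm_nonneg _) _), one_div_mul_cancel hq0.ne', Real.rpow_one]
      rfl
    rw [← h1, hy, Real.mul_rpow hs.le (norm_nonneg _), (DR.norm_rpow_eq hptop _ _).2,
      integral_count]
    simp only [hF, Equiv.symm_apply_apply]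
    rfl
  set o : ((Fin m ⊕ Fin m) × Bool) ⊕ Fin (n - 4 * m) := Sum.inr ⟨0, hr⟩ with ho
  set Y : Fin m ⊕ Fin m → Bool → Fin d → ℝ := fun c b l => y (e (Sum.inl (c, b))) l - y (e o) l
    with hY
  have h0t : ∀ c, ∑ l, |Y c true l| ^ q = s ^ q * ∑ ω, |ind c ω| ^ q := by
    intro c; simp only [hY, hdist]; simp [val, ho]
  have h0f : ∀ c, ∑ l, |Y c false l| ^ q = s ^ q * ∑ ω, |ind c ω| ^ q := by
    intro c; simp only [hY, hdist]; simp [val, ho]
  have htt : ∀ c c', ∑ l, |Y c true l - Y c' true l| ^ q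
      = s ^ q * ∑ ω, |ind c ω - ind c' ω| ^ q := by
    intro c c'; simp only [hY, sub_sub_sub_cancel_right, hdist]; simp [val]
  have htf : ∀ c c', ∑ l, |Y c true l - Y c' false l| ^ q
      = s ^ q * ∑ ω, |ind c ω + ind c' ω| ^ q := by
    intro c c'; simp only [hY, sub_sub_sub_cancel_right, hdist]; simp [val]
  have hneg : ∀ c l, Y c false l = - Y c true l := by
    intro c l
    by_contra hne
    have h1 : Y c true l + Y c false l ≠ 0 := fun h => hne (by linarith)
    have h2 : ∑ l, |Y c true l - Y c false l| ^ q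
        < ∑ l, 2 ^ q * ((|Y c true l| ^ q + |Y c false l| ^ q) / 2) :=
      Finset.sum_lt_sum (fun i _ => mid_le hq1 _ _) ⟨l, Finset.mem_univ l, mid_lt hq1 h1⟩
    rw [← Finset.mul_sum, ← Finset.sum_div, Finset.sum_add_distrib, h0t, h0f, htf] at h2
    have h3 : ∑ ω, |ind c ω + ind c ω| ^ q = 2 ^ q * ∑ ω, |ind c ω| ^ q := by
      rw [Finset.mul_sum]
      refine Finset.sum_congr rfl fun ω _ => ?_
      rw [← two_mul, abs_mul, abs_two, Real.mul_rpow zero_le_two (abs_nonneg _)]
    rw [h3] at h2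
    linarith
  have hcl : ∀ c c', ∑ l, cl q (Y c true l) (Y c' true l)
      = s ^ q * ∑ ω, cl q (ind c ω) (ind c' ω) := by
    intro c c'
    have h1 := htf c c'
    simp only [hneg, sub_neg_eq_add] at h1
    simp only [cl, Finset.sum_sub_distrib, Finset.sum_add_distrib, ← Finset.mul_sum, h1, htt, h0t]
    ring
  have hdisj : ∀ c c', (∀ ω, ind c ω * ind c' ω = 0) → ∀ l, Y c true l * Y c' true l = 0 := by
    intro c c' h
    apply disj_of_sum hq0 hq2
    rw [hcl, Finset.sum_eq_zero fun ω _ => cl_zero hq0 (h ω), mul_zero]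
  have hmeet : ∀ ij : Fin m × Fin m,
      ∃ l, Y (Sum.inl ij.1) true l * Y (Sum.inr ij.2) true l ≠ 0 := by
    intro ij
    by_contra hcon
    push Not at hcon
    have h1 := hcl (Sum.inl ij.1) (Sum.inr ij.2)
    rw [Finset.sum_eq_zero fun l _ => cl_zero hq0 (hcon l)] at h1
    have h2 := (mul_eq_zero.1 h1.symm).resolve_left (Real.rpow_pos_of_pos hs _).ne'
    rw [Finset.sum_eq_single ij] at h2
    · have h3 : ind (Sum.inl ij.1) ij * ind (Sum.inr ij.2) ij ≠ 0 := by simp [ind]
      rcases lt_or_gt_of_ne hq2 with h | h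
      · exact absurd h2 (cl_neg hq0 h h3).ne
      · exact absurd h2 (cl_pos h h3).ne'
    · intro ω _ hω
      apply cl_zero hq0
      simp only [ind]
      split_ifs with a b
      · exact absurd (Prod.ext a b) hω
      all_goals simp
    · simp
  choose L hL using hmeet
  have hinj : Function.Injective L := by
    rintro ⟨i, j⟩ ⟨i', j'⟩ h
    have a1 := hL (i, j)
    have a2 := hL (i', j')
    rw [← h] at a2
    have b1 : i = i' := by
      by_contra hne
      have := hdisj (Sum.inl i) (Sum.inl i') (fun ω => by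
        simp only [ind]
        split_ifs with a b
        · exact absurd (a.symm.trans b) hne
        all_goals simp) (L (i, j))
      exact mul_ne_zero (left_ne_zero_of_mul a1) (left_ne_zero_of_mul a2) this
    have b2 : j = j' := by
      by_contra hne
      have := hdisj (Sum.inr j) (Sum.inr j') (fun ω => by
        simp only [ind]
        split_ifs with a b
        · exact absurd (a.symm.trans b) hne
        all_goals simp) (L (i, j))
      exact mul_ne_zero (right_ne_zero_of_mul a1) (right_ne_zero_of_mul a2) this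
    rw [b1, b2]
  have := Fintype.card_le_of_injective L hinj
  simpa [sq] using this

end Crest.Agent.S0359
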