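import Crest.Statements.S0370
import Crest.Agent.Pre.Main

set_option autoImplicit false
open Crest Crest.GeometryTopology

namespace Crest.Agent.S0370

/-- There is an absolute constant `C` such that, in every dimension `d`, every finite sequence of vectors of Euclidean norm at most one in `ℝ^d` admits one choice of signs `±1` under which every signed prefix sum has Euclidean norm at most `C * √d`. -/
theorem result :
    ∃ C : ℝ, ∀ (d N : ℕ) (v : Fin N → EuclideanSpace ℝ (Fin d)),
      (∀ i, ‖v i‖ ≤ 1) →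
      ∃ ε : Fin N → ℤ, (∀ i, ε i = 1 ∨ ε i = -1) ∧
        ∀ k : ℕ, k ≤ N →
          ‖∑ i ∈ Finset.univ.filter (fun i : Fin N => (i : ℕ) < k), (ε i : ℝ) • v i‖ ≤ C * Real.sqrt d := by
  obtain ⟨C, hC, H⟩ := Pre.main
  refine ⟨√(C * 645), fun d N v hv => ?_⟩
  obtain ⟨ε, hε, h⟩ := H d N (fun i => if h : i < N then v ⟨i, h⟩ else 0) (fun i => by
    by_cases h : i < N
    · simpa [h] using hv ⟨i, h⟩
    · simp [h])
  refine ⟨fun i => if ε i = 1 then 1 else -1, fun i => by by_cases h : ε i = 1 <;> simp [h],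
    fun k hk => ?_⟩
  have e : ∑ i ∈ Finset.univ.filter (fun i : Fin N => (i : ℕ) < k),
      (((if ε i = 1 then 1 else -1 : ℤ) : ℝ)) • v i =
      ∑ i ∈ Finset.range k, ε i • (if h : i < N then v ⟨i, h⟩ else 0) := by
    refine Finset.sum_bij (fun i _ => (i : ℕ)) (fun i hi => by simpa using hi)
      (fun i _ j _ h => Fin.ext h)
      (fun j hj => ⟨⟨j, lt_of_lt_of_le (Finset.mem_range.1 hj) hk⟩, by simpa using hj, rfl⟩)
      (fun i _ => ?_)
    rw [dif_pos i.2]
    rcases hε i with h | h
    · simp [h]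
    · rw [if_neg (by rw [h]; norm_num), h]; simp
  rw [e]
  rcases Nat.eq_zero_or_pos d with rfl | hd
  · rw [Subsingleton.elim (∑ i ∈ Finset.range k, ε i • (if h : i < N then v ⟨i, h⟩ else 0)) 0]
    simp
  · rw [← Real.sqrt_mul (by positivity)]
    refine Real.le_sqrt_of_sq_le ((h k hk).trans ?_)
    have : (1 : ℝ) ≤ d := by exact_mod_cast hd
    rw [mul_assoc]
    gcongr
    linarith

end Crest.Agent.S0370
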