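import Crest.Statements.S0445
import Crest.Agent.TwoWay.Machine

set_option autoImplicit false
universe u
open Crest Crest.LogicCS

namespace Crest.Agent.S0445

/-- For every h ≥ 2, over the alphabet of Boolean-valued binary relations on h points: a two-way nondeterministic finite automaton with exactly h + 3 states and no left moves recognizes the one-way liveness language; every deterministic such automaton with s states, s finite, that recognizes it (at most one rule per state and scanned cell; partial and stay rules allowed; acceptance when an accepting state is reached at some finite time, time zero included) satisfies 2^⌊(h−2)/31⌋ ≤ 4(s+1)². -/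
theorem result (h : ℕ) (hh : 2 ≤ h) :
    (∃ A : Crest.TwoWay.TwoWayNFA (Fin h → Fin h → Bool) (Fin (h + 3)),
        A.NoLeftMoves ∧ A.language = Crest.TwoWay.liveness h) ∧
      ∀ (σ : Type u) [Fintype σ] (D : Crest.TwoWay.TwoWayNFA (Fin h → Fin h → Bool) σ),
        D.IsDeterministic → D.language = Crest.TwoWay.liveness h →
          2 ^ ((h - 2) / 31) ≤ 4 * (Fintype.card σ + 1) ^ 2 := by
  refine ⟨⟨TW.guess ⟨h, by omega⟩ ⟨h + 1, by omega⟩ (fun a => ⟨a.1, by omega⟩),
    TW.guess_noLeft _ _ _,
    TW.guess_lang _ _ _ (fun a b h => Fin.ext (by simpa using h))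
      (fun h => by simp only [Fin.mk.injEq] at h; omega)
      (fun a h => by simp only [Fin.mk.injEq] at h; omega)⟩, ?_⟩
  intro σ _ D hdet hD
  have hD' : ∀ w, D.Accepts w ↔ w ∈ Crest.TwoWay.liveness h := fun w => by
    change w ∈ D.language ↔ _
    rw [hD]
  have h0 := TW.lower_bound hh D (fun w w' h1 h2 h3 u v huv => by
    have h4 : TW.beh D w' ≤ TW.beh D w := TW.le_of_func (TW.func_seg D hdet _) h1 h2 h3
    have h5 := (hD' _).2 ((TW.live_iff w' u v).2 huv)
    exact (TW.live_iff w u v).1 ((hD' _).1 (TW.accepts_mono D _ _ h4 h5)))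
  refine h0.trans ?_
  nlinarith [Nat.zero_le (Fintype.card σ)]

end Crest.Agent.S0445
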