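import Crest.Statements.S0501
import Crest.Agent.Dft.Top

set_option autoImplicit false
open Crest Crest.LogicCS

namespace Crest.Agent.S0501

open Crest.Agent.Dft

lemma params (n : ℕ) (hn : 2 ^ 81 ≤ n) : ∃ (k : ℕ) (s : Fin k → ℕ) (D a : ℕ),
    1 ≤ k ∧ (∀ j, Odd (s j)) ∧ Pairwise (Function.onFun Nat.Coprime s) ∧
    (∀ j, 144 * Nat.log 2 (s j) + 324 ≤ D) ∧ 12 ^ k ≤ 2 ^ a ∧ 2 * n ≤ 2 ^ a * ∏ j, s j ∧
    2 ^ a * ∏ j, s j ≤ 4 * n ∧ D * k ≤ 468 * Nat.log 2 n ∧ a * k ≤ 3 * Nat.log 2 n ∧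
    k ≤ Nat.log 2 n ∧ Nat.log 2 n ≤ (2 * k) ^ 4 := by
  obtain ⟨L, hL⟩ : ∃ L, L = Nat.log 2 n := ⟨_, rfl⟩
  have hn0 : n ≠ 0 := by rintro rfl; simp at hn
  have hL81 : 81 ≤ L := hL ▸ Nat.le_log_of_pow_le (by norm_num) hn
  have hL1 : 2 ^ L ≤ n := hL ▸ Nat.pow_log_le_self 2 hn0
  have hL2 : n < 2 ^ (L + 1) := hL ▸ Nat.lt_pow_succ_log_self (by norm_num) n
  rw [← hL]
  obtain ⟨k, hk1, hk2⟩ : ∃ k, k ^ 4 ≤ L ∧ L < (k + 1) ^ 4 := by
    refine ⟨L.sqrt.sqrt, ?_, ?_⟩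
    · have h1 := Nat.sqrt_le' L
      have h2 := Nat.sqrt_le' L.sqrt
      calc L.sqrt.sqrt ^ 4 = (L.sqrt.sqrt ^ 2) ^ 2 := by ring
        _ ≤ L.sqrt ^ 2 := Nat.pow_le_pow_left h2 2
        _ ≤ L := h1
    · have h1 := Nat.lt_succ_sqrt' L
      have h2 := Nat.lt_succ_sqrt' L.sqrt
      calc L < (L.sqrt + 1) ^ 2 := h1
        _ ≤ ((L.sqrt.sqrt + 1) ^ 2) ^ 2 := Nat.pow_le_pow_left h2 2
        _ = (L.sqrt.sqrt + 1) ^ 4 := by ring
  have hk3 : 3 ≤ k := by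
    by_contra h
    have : (k + 1) ^ 4 ≤ 3 ^ 4 := Nat.pow_le_pow_left (by omega) 4
    omega
  have hk0 : 0 < k := by omega
  obtain ⟨Q, hQ⟩ : ∃ Q, Q = L / k := ⟨_, rfl⟩
  have hQ1 : k * Q ≤ L := hQ ▸ Nat.mul_div_le L k
  have hQ2 : L < k * (Q + 1) := hQ ▸ Nat.lt_mul_div_succ L hk0
  have hQ3 : k ^ 3 ≤ Q := by
    rw [hQ, Nat.le_div_iff_mul_le hk0]
    calc k ^ 3 * k = k ^ 4 := by ring
      _ ≤ L := hk1
  obtain ⟨b, hb⟩ : ∃ b, Q = b + (k * k + k + 1) + 4 := ⟨Q - (k * k + k + 5), by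
    have : k * k + k + 5 ≤ k ^ 3 := by nlinarith
    omega⟩
  let s : Fin k → ℕ := fun j => (j.val + 1) * (k.factorial * 2 ^ b) + 1
  have hs1 : ∀ j, 2 ^ b ≤ s j := fun j => by
    have := Nat.factorial_pos k
    have h1 : 2 ^ b ≤ k.factorial * 2 ^ b := Nat.le_mul_of_pos_left _ this
    have h2 : k.factorial * 2 ^ b ≤ (j.val + 1) * (k.factorial * 2 ^ b) :=
      Nat.le_mul_of_pos_left _ (by omega)
    simp only [s]; omega
  have hs2 : ∀ j, s j ≤ 2 ^ (b + (k * k + k + 1)) := fun j => by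
    have h1 : k ≤ 2 ^ k := Nat.lt_two_pow_self.le
    have h2 : k.factorial ≤ 2 ^ (k * k) :=
      (Nat.factorial_le_pow k).trans (by rw [pow_mul]; exact Nat.pow_le_pow_left h1 k)
    have h3 : (j.val + 1) * (k.factorial * 2 ^ b) ≤ 2 ^ k * (2 ^ (k * k) * 2 ^ b) :=
      Nat.mul_le_mul (by have := j.2; omega) (Nat.mul_le_mul_right _ h2)
    have h4 : 2 ^ (b + (k * k + k + 1)) = 2 * (2 ^ k * (2 ^ (k * k) * 2 ^ b)) := by ring
    have h5 : 0 < 2 ^ k * (2 ^ (k * k) * 2 ^ b) := by positivity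
    simp only [s]; omega
  obtain ⟨S, hS⟩ : ∃ S, S = ∏ j, s j := ⟨_, rfl⟩
  have hS1 : 2 ^ (b * k) ≤ S := by
    have := Finset.pow_card_le_prod Finset.univ s _ fun j _ => hs1 j
    rwa [Finset.card_univ, Fintype.card_fin, ← pow_mul, ← hS] at this
  have hS2 : S ≤ 2 ^ ((b + (k * k + k + 1)) * k) := by
    have := Finset.prod_le_pow_card Finset.univ s _ fun j _ => hs2 j
    rwa [Finset.card_univ, Fintype.card_fin, ← pow_mul, ← hS] at this
  have hS0 : 0 < S := lt_of_lt_of_le (by positivity) hS1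
  have hq : 2 ^ (4 * k) ≤ n / S := by
    rw [Nat.le_div_iff_mul_le hS0]
    calc 2 ^ (4 * k) * S ≤ 2 ^ (4 * k) * 2 ^ ((b + (k * k + k + 1)) * k) :=
          Nat.mul_le_mul_left _ hS2
      _ = 2 ^ (k * Q) := by rw [← pow_add, hb]; congr 1; ring
      _ ≤ 2 ^ L := Nat.pow_le_pow_right (by norm_num) hQ1
      _ ≤ n := hL1
  have hq0 : n / S ≠ 0 := (lt_of_lt_of_le (by positivity) hq).ne'
  obtain ⟨c, hc⟩ : ∃ c, c = Nat.log 2 (n / S) := ⟨_, rfl⟩
  have hc1 : 2 ^ c ≤ n / S := hc ▸ Nat.pow_log_le_self 2 hq0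
  have hc2 : n / S < 2 ^ (c + 1) := hc ▸ Nat.lt_pow_succ_log_self (by norm_num) _
  have hc3 : 2 ^ (c + 2) * S ≤ 4 * n := by
    have := (Nat.le_div_iff_mul_le hS0).1 hc1
    calc 2 ^ (c + 2) * S = 4 * (2 ^ c * S) := by ring
      _ ≤ 4 * n := by omega
  refine ⟨k, s, 144 * (b + (k * k + k + 1)) + 324, c + 2, hk0, fun j => ?_, ?_, fun j => ?_, ?_,
    ?_, hS ▸ hc3, ?_, ?_, ?_, ?_⟩
  · refine Even.add_one (Even.mul_left (Even.mul_right ?_ _) _)
    exact even_iff_two_dvd.2 (Nat.dvd_factorial (by norm_num) (by omega))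
  · have key : ∀ i j : Fin k, i < j → Nat.Coprime (s i) (s j) := fun i j hij => by
      have h1 : i.val < j.val := hij
      refine Nat.coprime_mul_succ (Dvd.dvd.mul_right ?_ _)
      exact Nat.dvd_factorial (by omega) (by have := j.2; omega)
    intro i j hij
    rcases lt_or_gt_of_ne hij with h | h
    · exact key i j h
    · exact (key j i h).symm
  · have := Nat.log_mono_right (b := 2) (hs2 j)
    rw [Nat.log_pow (by norm_num)] at this
    omega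
  · calc 12 ^ k ≤ 16 ^ k := Nat.pow_le_pow_left (by norm_num) k
      _ = 2 ^ (4 * k) := by rw [pow_mul]; norm_num
      _ ≤ 2 ^ (c + 1) := hq.trans hc2.le
      _ ≤ 2 ^ (c + 2) := Nat.pow_le_pow_right (by norm_num) (by omega)
  · rw [← hS]
    have := (Nat.div_lt_iff_lt_mul hS0).1 hc2
    calc 2 * n ≤ 2 * (2 ^ (c + 1) * S) := by omega
      _ = 2 ^ (c + 2) * S := by ring
  · have h1 : b + (k * k + k + 1) ≤ Q := by omega
    have h2 : 1 ≤ Q := by omega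
    nlinarith
  · have h1 : 2 ^ (c + 2 + b * k) < 2 ^ (L + 3) := by
      calc 2 ^ (c + 2 + b * k) = 2 ^ (c + 2) * 2 ^ (b * k) := pow_add _ _ _
        _ ≤ 2 ^ (c + 2) * S := Nat.mul_le_mul_left _ hS1
        _ ≤ 4 * n := hc3
        _ < 4 * 2 ^ (L + 1) := by omega
        _ = 2 ^ (L + 3) := by ring
    have h2 : c + 2 + b * k < L + 3 := (Nat.pow_lt_pow_iff_right (by norm_num)).1 h1
    have h3 : c + 2 ≤ 3 * k ^ 3 := by
      rw [hb] at hQ2
      nlinarith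
    calc (c + 2) * k ≤ 3 * k ^ 3 * k := Nat.mul_le_mul_right _ h3
      _ = 3 * k ^ 4 := by ring
      _ ≤ 3 * L := by omega
  · calc k = k ^ 1 := (pow_one k).symm
      _ ≤ k ^ 4 := Nat.pow_le_pow_right hk0 (by norm_num)
      _ ≤ L := hk1
  · exact hk2.le.trans (Nat.pow_le_pow_left (by omega) 4)

lemma theta_le : Crest.FourierCircuit.savingExponent ≤ 1 := by
  unfold Crest.FourierCircuit.savingExponent
  rw [Real.logb_le_iff_le_rpow (by norm_num) (by norm_num), Real.rpow_one]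
  norm_num

lemma le_theta {ε : ℝ} (h : 1 / 4000000000 ≤ ε) : 1 - ε ≤ Crest.FourierCircuit.savingExponent := by
  unfold Crest.FourierCircuit.savingExponent
  rw [Real.le_logb_iff_rpow_le (by norm_num) (by norm_num), Real.rpow_sub (by norm_num),
    Real.rpow_one, div_le_iff₀ (by positivity), Real.rpow_def_of_pos (by norm_num)]
  have h1 : 1 ≤ Real.log (10 ^ 6) := by
    rw [Real.le_log_iff_exp_le (by norm_num)]
    have := Real.exp_one_lt_d9
    linarith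
  have h2 := Real.add_one_le_exp (Real.log (10 ^ 6) * ε)
  have h3 : ε ≤ Real.log (10 ^ 6) * ε := by nlinarith
  have h4 : 1 + 1 / 4000000000 ≤ Real.exp (Real.log (10 ^ 6) * ε) :=
    le_trans (by rw [add_comm]; exact add_le_add_left (h.trans h3) 1) h2
  refine le_trans ?_ (mul_le_mul_of_nonneg_left h4 (by norm_num))
  norm_num

lemma bound {δ θ : ℝ} (h0 : 0 ≤ δ) (h1 : δ ≤ 1) (hθ : 1 - δ / 4 ≤ θ) {n k : ℕ} (hn : 2 ^ 81 ≤ n)
    (hk : 1 ≤ k) (hL : Nat.log 2 n ≤ (2 * k) ^ 4) :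
    (Nat.log 2 n : ℝ) / k * (k : ℝ) ^ (1 - δ) ≤ 4 * Real.log n ^ θ ∧ Real.exp 1 ≤ Real.log n := by
  have hn0 : n ≠ 0 := by rintro rfl; simp at hn
  have hL81 : 81 ≤ Nat.log 2 n := Nat.le_log_of_pow_le (by norm_num) hn
  have hL1 : 2 ^ Nat.log 2 n ≤ n := Nat.pow_log_le_self 2 hn0
  obtain ⟨L, hLd⟩ : ∃ L : ℝ, L = Nat.log 2 n := ⟨_, rfl⟩
  have hL81' : 81 ≤ L := by rw [hLd]; exact_mod_cast hL81
  have hlog : L * Real.log 2 ≤ Real.log n := by
    rw [hLd, ← Real.log_pow]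
    exact Real.log_le_log (by positivity) (by exact_mod_cast hL1)
  have h2 := Real.log_two_gt_d9
  have h3 : L ≤ 2 * Real.log n := by nlinarith
  have hk' : (1 : ℝ) ≤ k := by exact_mod_cast hk
  have hL' : L ≤ (2 * k : ℝ) ^ 4 := by rw [hLd]; exact_mod_cast hL
  rw [← hLd]
  refine ⟨?_, by have := Real.exp_one_lt_d9; linarith⟩
  have h4 : L ^ (δ / 4) ≤ 2 * (k : ℝ) ^ δ := by
    calc L ^ (δ / 4) ≤ ((2 * k : ℝ) ^ 4) ^ (δ / 4) :=
          Real.rpow_le_rpow (by linarith) hL' (by linarith)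
      _ = (2 * k : ℝ) ^ δ := by
          rw [← Real.rpow_natCast, ← Real.rpow_mul (by positivity)]
          congr 1; push_cast; ring
      _ = 2 ^ δ * (k : ℝ) ^ δ := Real.mul_rpow (by norm_num) (by positivity)
      _ ≤ 2 * (k : ℝ) ^ δ := by
          gcongr
          exact Real.rpow_le_self_of_one_le (by norm_num) h1
  have h5 : L / k * (k : ℝ) ^ (1 - δ) = L / (k : ℝ) ^ δ := by
    rw [Real.rpow_sub (by positivity), Real.rpow_one]
    field_simp
  have h6 : L / (k : ℝ) ^ δ ≤ 2 * L ^ (1 - δ / 4) := by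
    rw [Real.rpow_sub (by linarith), Real.rpow_one, div_le_iff₀ (by positivity)]
    have : 0 < L ^ (δ / 4) := Real.rpow_pos_of_pos (by linarith) _
    rw [mul_div_assoc', div_mul_eq_mul_div, le_div_iff₀ this]
    nlinarith
  have h7 : L ^ (1 - δ / 4) ≤ 2 * Real.log n ^ θ := by
    calc L ^ (1 - δ / 4) ≤ (2 * Real.log n) ^ (1 - δ / 4) :=
          Real.rpow_le_rpow (by linarith) h3 (by linarith)
      _ = 2 ^ (1 - δ / 4) * Real.log n ^ (1 - δ / 4) := Real.mul_rpow (by norm_num) (by linarith)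
      _ ≤ 2 * Real.log n ^ θ := by
          refine mul_le_mul (Real.rpow_le_self_of_one_le (by norm_num) (by linarith))
            (Real.rpow_le_rpow_of_exponent_le (by linarith) hθ)
            (Real.rpow_nonneg (by linarith) _) (by norm_num)
  linarith

/-- For some constant C and threshold N₀ and every n ≥ N₀, some exact complex linear circuit (each gate adds or subtracts two available values or multiplies one by an arbitrary fixed complex scalar; the inputs and the constant 0 are available at the start; every gate counts one) computes the unnormalized discrete Fourier transform of order n on every complex input vector with at most C · n · (log n)^θ · (log log n)^(4 − θ) gates, where θ = log_m (m − Δ/2^71), m = 10^6, Δ = 6871402692000000. -/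
theorem result :
    ∃ C : ℝ, ∃ N₀ : ℕ, ∀ n ≥ N₀, ∃ P : Crest.FourierCircuit.LinCircuit n,
      P.Computes (Crest.FourierCircuit.dftMatrix n) ∧
        (P.size : ℝ) ≤ C * n * Real.log n ^ Crest.FourierCircuit.savingExponent *
          Real.log (Real.log n) ^ (4 - Crest.FourierCircuit.savingExponent) := by
  obtain ⟨δ, hδ⟩ : ∃ δ : ℝ, δ = 1 / 1000000000 := ⟨_, rfl⟩
  have hδ0 : 0 ≤ δ := by rw [hδ]; norm_num
  have hδ1 : δ ≤ 1 := by rw [hδ]; norm_num
  obtain ⟨E, hE, hG⟩ := good_bound hδ0 hδ.le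
  obtain ⟨B, hB⟩ : ∃ B : ℝ, B = E * (WW + 1) := ⟨_, rfl⟩
  have hB0 : 0 ≤ B := by rw [hB]; positivity
  refine ⟨4 * (38 + 64 * 468 + 64 * 468 * B + 640 * 3), 2 ^ 81, fun n hn => ?_⟩
  obtain ⟨k, s, D, a, hk, hs, hco, hD, ha, h1, h2, h3, h4, h5, h6⟩ := params n hn
  obtain ⟨h7, h8⟩ := bound hδ0 hδ1 (le_theta (ε := δ / 4) (by rw [hδ]; norm_num)) hn hk h6
  obtain ⟨P, hP, hsz⟩ := exists_circuit _ (can_dft s hs hco (by positivity) (hG _ k hk) D hD a ha n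
    h1 h2 (Complex.exp_ne_zero (2 * Real.pi * Complex.I / n)) _)
  refine ⟨P, hP, hsz.trans ?_⟩
  obtain ⟨θ, hθ⟩ : ∃ θ, θ = Crest.FourierCircuit.savingExponent := ⟨_, rfl⟩
  have hθ1 : θ ≤ 1 := hθ ▸ theta_le
  rw [← hθ] at h7 ⊢
  have hk' : (1 : ℝ) ≤ k := by exact_mod_cast hk
  have hll : 1 ≤ Real.log (Real.log n) ^ (4 - θ) := by
    refine Real.one_le_rpow ?_ (by linarith)
    rw [Real.le_log_iff_exp_le ((Real.exp_pos 1).trans_le h8)]
    exact h8
  obtain ⟨q, hq⟩ : ∃ q : ℝ, q = (Nat.log 2 n : ℝ) / k := ⟨_, rfl⟩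
  obtain ⟨u, hu⟩ : ∃ u : ℝ, u = (k : ℝ) ^ (1 - δ) := ⟨_, rfl⟩
  have hu1 : 1 ≤ u := hu ▸ Real.one_le_rpow hk' (by linarith)
  have hq1 : 1 ≤ q := by
    rw [hq, le_div_iff₀ (by positivity), one_mul]; exact_mod_cast h5
  have hq2 : (D : ℝ) ≤ 468 * q := by
    rw [hq, mul_div_assoc', le_div_iff₀ (by positivity)]; exact_mod_cast h3
  have hq3 : (a : ℝ) ≤ 3 * q := by
    rw [hq, mul_div_assoc', le_div_iff₀ (by positivity)]; exact_mod_cast h4
  rw [← hq, ← hu] at h7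
  rw [← hu]
  have e1 : q ≤ q * u := by nlinarith
  have e2 : (D : ℝ) * u ≤ 468 * (q * u) := by nlinarith
  have e3 := mul_le_mul_of_nonneg_right e2 hB0
  have e4 : 6 + 16 * (4 * D + 1 + 4 * D * (E * u) * (WW + 1)) + 16 * (40 * a + 1) ≤
      (38 + 64 * 468 + 64 * 468 * B + 640 * 3) * (q * u) := by
    have : 4 * D * (E * u) * (WW + 1) = 4 * (D * u * B) := by rw [hB]; ring
    rw [this]
    nlinarith
  have e5 : (0 : ℝ) ≤ 38 + 64 * 468 + 64 * 468 * B + 640 * 3 := by positivity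
  have e6 := e4.trans (mul_le_mul_of_nonneg_left h7 e5)
  have e7 : (0 : ℝ) ≤ Real.log n ^ θ := Real.rpow_nonneg (Real.log_natCast_nonneg n) _
  calc _ ≤ (38 + 64 * 468 + 64 * 468 * B + 640 * 3) * (4 * Real.log n ^ θ) * n :=
        mul_le_mul_of_nonneg_right e6 (Nat.cast_nonneg n)
    _ = 4 * (38 + 64 * 468 + 64 * 468 * B + 640 * 3) * n * Real.log n ^ θ * 1 := by ring
    _ ≤ _ := mul_le_mul_of_nonneg_left hll (by positivity)

end Crest.Agent.S0501
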