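import Crest.Statements.S0505
import Crest.Agent.Imm.Upper

set_option autoImplicit false
universe u
open Crest Crest.LogicCS

namespace Crest.Agent.S0505

/-- For every field K and every n ≥ 2 there is a syntactically homogeneous depth-five sum-product circuit over K in the n³ matrix-entry variables (shared gates, unrestricted fan-in and bottom support) whose output is the top-left entry of the ordered product of the n variable matrices of order n and whose number of vertices, leaves included, is at most 2n³ + r·n² + r·n^(t+1) + n^(r−1) + 1 with t = ⌈√n⌉, r = ⌈n/t⌉, and also at most n^(√n + 4). Layers are indexed by initial segments of ℕ. -/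
theorem result (K : Type u) [Field K] (n : ℕ)
    (hn : 2 ≤ n) :
    ∃ (l b p s r : ℕ)
      (C : Crest.ArithCircuit.SPSPS K (Fin n × Fin n × Fin n) (Fin l) (Fin b) (Fin p) (Fin s) (Fin r)),
      C.IsHomogeneous ∧ C.output = Crest.ArithCircuit.imm K n ∧
        C.size ≤ 2 * n ^ 3 + ⌈(n : ℝ) / ⌈Real.sqrt n⌉₊⌉₊ * n ^ 2 +
          ⌈(n : ℝ) / ⌈Real.sqrt n⌉₊⌉₊ * n ^ (⌈Real.sqrt n⌉₊ + 1) +
          n ^ (⌈(n : ℝ) / ⌈Real.sqrt n⌉₊⌉₊ - 1) + 1 ∧
        (C.size : ℝ) ≤ (n : ℝ) ^ (Real.sqrt n + 4) := by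
  set t := ⌈Real.sqrt n⌉₊ with ht
  set r := ⌈(n : ℝ) / t⌉₊ with hr
  have hn0 : (2 : ℝ) ≤ n := by exact_mod_cast hn
  have hs1 : 1 ≤ Real.sqrt n := by
    rw [Real.le_sqrt (by norm_num) (by linarith)]; linarith
  have hss : Real.sqrt n * Real.sqrt n = n := Real.mul_self_sqrt (by linarith)
  have ht1 : Real.sqrt n ≤ t := Nat.le_ceil _
  have ht2 : (t : ℝ) < Real.sqrt n + 1 := Nat.ceil_lt_add_one (by linarith)
  have ht0 : (0 : ℝ) < t := by linarith
  have hr1 : (n : ℝ) / t ≤ r := Nat.le_ceil _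
  have hrt : n ≤ r * t := by
    rw [div_le_iff₀ ht0] at hr1
    exact_mod_cast hr1
  have hr2 : r ≤ t := by
    rw [hr, Nat.ceil_le, div_le_iff₀ ht0]
    nlinarith
  have ht3 : t ≤ n := by
    rw [ht, Nat.ceil_le]
    nlinarith
  have hr0 : 1 ≤ r := by
    rcases Nat.eq_zero_or_pos r with h | h
    · rw [h] at hrt; omega
    · exact h
  obtain ⟨l, b, p, s, r', C, h1, h2, h3⟩ :=
    Crest.Agent.Imm.exists_block K n r t (by omega) hr0 hrt
  refine ⟨l, b, p, s, r', C, h1, h2, h3.le, ?_⟩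
  rw [h3]
  have hn1 : (1 : ℝ) ≤ n := by linarith
  rcases Nat.eq_or_lt_of_le hn with h | h
  · subst h
    have e1 : t = 2 := by
      have : 1 < Real.sqrt (2 : ℕ) := by
        rw [Real.lt_sqrt (by norm_num)]; norm_num
      have : (1 : ℝ) < t := by linarith
      have : 1 < t := by exact_mod_cast this
      omega
    have e2 : r = 1 := by
      rw [hr, e1]; norm_num
    rw [e1, e2]
    calc ((2 * 2 ^ 3 + 1 * 2 ^ 2 + 1 * 2 ^ (2 + 1) + 2 ^ (1 - 1) + 1 : ℕ) : ℝ)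
        ≤ ((2 : ℕ) : ℝ) ^ ((5 : ℕ) : ℝ) := by rw [Real.rpow_natCast]; norm_num
      _ ≤ _ := Real.rpow_le_rpow_of_exponent_le hn1 (by push_cast at hs1 ⊢; linarith)
  · have hn3 : (3 : ℝ) ≤ n := by exact_mod_cast h
    set A := (n : ℝ) ^ (Real.sqrt n) with hA
    have hA1 : (n : ℝ) ≤ A := by
      calc (n : ℝ) = (n : ℝ) ^ (1 : ℝ) := by simp
        _ ≤ A := Real.rpow_le_rpow_of_exponent_le hn1 hs1
    have e1 : (n : ℝ) ^ (Real.sqrt n + 4) = A * n ^ 4 := by
      rw [Real.rpow_add (by linarith), ← Real.rpow_natCast]; norm_num [hA]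
    have e2 : (n : ℝ) ^ (t + 1) ≤ A * n ^ 2 := by
      calc (n : ℝ) ^ (t + 1) = (n : ℝ) ^ ((t + 1 : ℕ) : ℝ) := by rw [Real.rpow_natCast]
        _ ≤ (n : ℝ) ^ (Real.sqrt n + 2) :=
          Real.rpow_le_rpow_of_exponent_le hn1 (by push_cast; linarith)
        _ = A * n ^ 2 := by
          rw [Real.rpow_add (by linarith), ← Real.rpow_natCast]; norm_num [hA]
    have e3 : (n : ℝ) ^ (r - 1) ≤ A := by
      calc (n : ℝ) ^ (r - 1) = (n : ℝ) ^ ((r - 1 : ℕ) : ℝ) := by rw [Real.rpow_natCast]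
        _ ≤ A := by
          apply Real.rpow_le_rpow_of_exponent_le hn1
          have : (r : ℝ) ≤ t := by exact_mod_cast hr2
          rw [Nat.cast_sub hr0]; push_cast; linarith
    have hrn : (r : ℝ) ≤ n := by exact_mod_cast hr2.trans ht3
    rw [e1]
    push_cast
    have a1 : (r : ℝ) * n ^ 2 ≤ n ^ 3 := by
      calc (r : ℝ) * n ^ 2 ≤ (n : ℝ) * n ^ 2 := by gcongr
        _ = (n : ℝ) ^ 3 := by ring
    have a2 : (r : ℝ) * n ^ (t + 1) ≤ A * n ^ 3 := by
      calc (r : ℝ) * n ^ (t + 1) ≤ n * (A * n ^ 2) := by gcongr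
        _ = A * n ^ 3 := by ring
    have a3 : 3 * (n : ℝ) ^ 3 ≤ A * n ^ 3 := by gcongr; linarith
    have a4 : (2 : ℝ) ≤ n ^ 3 := by
      calc (2 : ℝ) ≤ 3 ^ 3 := by norm_num
        _ ≤ n ^ 3 := by gcongr
    have a5 : A * 2 ≤ A * n ^ 3 := by gcongr
    have a6 : A * n ^ 3 * 3 ≤ A * n ^ 4 := by
      calc A * n ^ 3 * 3 ≤ A * n ^ 3 * n := by gcongr
        _ = A * n ^ 4 := by ring
    linarith

end Crest.Agent.S0505
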