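import Crest.Statements.S0539
import Crest.Agent.QAC.Step
import Crest.Agent.QAC.Fin
import Crest.Agent.QAC.Poly
import Crest.Agent.QAC.Lay
import Crest.Agent.QAC.Asym
import Crest.Agent.QAC.Par

set_option autoImplicit false
open Crest.Quantum.Circuit
open Crest Crest.MathPhysics

namespace Crest.Agent.S0539

/-- Fix a depth `d`, an exponent `c` and `ε > 0`. For all large `n`: every circuit on `N` wires with `n ≤ N ≤ n ^ c`, made of at most `d` layers of pairwise disjoint one-qubit unitary gates and generalized Toffoli gates, run on the input `x` written on the first `n` wires with every other wire at `0`, has, whichever wire is measured, some input `x` for which the measured bit equals the parity of `x` with probability less than `1/2 + ε`. -/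
theorem result (d c : ℕ) (ε : ℝ) (hε : 0 < ε) :
    ∃ n₀ : ℕ, ∀ n ≥ n₀, ∀ N : ℕ, n ≤ N → N ≤ n ^ c →
      ∀ C : List (List (Gate N)), CircuitWF C → C.length ≤ d →
        ∀ o : Fin N, ∃ x : Fin n → Bool,
          outcomeProb o (parity x) (runCircuit C (basisState (inputString n x))) < 1 / 2 + ε := by
  exact QAC.fin (QAC.step QAC.poly) QAC.lay QAC.asym QAC.par d c ε hε

end Crest.Agent.S0539
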