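import Crest.Statements.S0554
import Crest.Agent.QQ.Main

set_option autoImplicit false
open Crest.MathPhysics.Query
open Crest Crest.MathPhysics

namespace Crest.Agent.S0554

/-- For every `k ≥ 2` there are constants `c, C, b > 0` such that for every large enough power of four `m` some total Boolean function on finitely many bits has a quantum query algorithm with at most `C √m (log m)^b` queries and error at most `1/3` on every input, while every randomized algorithm with error at most `1/3` on every input reads at least `c m^{2 - 1/k} / (log m)^2` bits on some input. So no power below four bounds randomized by quantum query complexity. -/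
theorem result (k : ℕ) (hk : 2 ≤ k) :
    ∃ (c C b : ℝ), 0 < c ∧ 0 < C ∧ 0 < b ∧ ∃ m₀ : ℕ, ∀ m : ℕ, m₀ ≤ m → (∃ j : ℕ, m = 4 ^ j) →
      ∃ (n : ℕ) (F : (Fin n → Bool) → Bool),
        (∃ q : ℕ, (q : ℝ) ≤ C * Real.sqrt m * Real.log m ^ b ∧ QuantumComputes F q) ∧
        (∀ r : ℕ, RandomizedComputes F r →
          c * (m : ℝ) ^ (2 - 1 / (k : ℝ)) / Real.log m ^ 2 ≤ r) := by
  obtain ⟨C, e, hC⟩ := QQ.PB_pG k
  obtain ⟨j₀, hj₀⟩ := (QQ.PB_pF k).eventually_le (k := k) (by omega)
  refine ⟨1 / 32, (C + 1) * 2 ^ (e + 1), (e + 1 : ℕ), by norm_num, by positivity, by positivity,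
    4 ^ (j₀ + 1), ?_⟩
  rintro m hm ⟨j, rfl⟩
  have hj : j₀ + 1 ≤ j := (Nat.pow_le_pow_iff_right (by norm_num)).1 hm
  obtain ⟨N, F, ⟨q, hq, hQ⟩, hR⟩ := QQ.main (k := k) (j := j) (by omega) (by omega)
    (hj₀ j (by omega))
  have hj1 : (1 : ℝ) ≤ j := by exact_mod_cast (by omega : 1 ≤ j)
  have hl : (j : ℝ) ≤ Real.log ((4 ^ j : ℕ) : ℝ) := by
    push_cast
    rw [Real.log_pow]
    have : 1 ≤ Real.log 4 := by
      rw [Real.le_log_iff_exp_le (by norm_num)]
      linarith [Real.exp_one_lt_three]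
    nlinarith
  refine ⟨N, F, ⟨q, ?_, hQ⟩, fun r hr => le_trans ?_ (hR r hr)⟩
  · have h1 : Real.sqrt ((4 ^ j : ℕ) : ℝ) = 2 ^ j := by
      rw [Real.sqrt_eq_iff_mul_self_eq (by positivity) (by positivity), ← mul_pow]
      norm_num
    have h2 : (q : ℝ) ≤ 2 ^ j * (C * (j + 1) ^ e) := by
      exact_mod_cast hq.trans (Nat.mul_le_mul_left _ (hC j))
    rw [h1, Real.rpow_natCast]
    calc (q : ℝ) ≤ 2 ^ j * ((C + 1) * (j + 1) ^ (e + 1)) := by
          refine h2.trans ?_
          gcongr <;> linarith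
      _ ≤ 2 ^ j * ((C + 1) * (2 * Real.log ((4 ^ j : ℕ) : ℝ)) ^ (e + 1)) := by
          gcongr; linarith
      _ = _ := by rw [mul_pow]; ring
  · have h1 : ((4 ^ j : ℕ) : ℝ) ^ (2 - 1 / (k : ℝ)) ≤ 4 ^ j * 4 ^ (j - j / k) := by
      rw [← pow_add, ← Real.rpow_natCast 4 (j + _)]
      push_cast
      rw [← Real.rpow_natCast, ← Real.rpow_mul (by norm_num),
        Nat.cast_sub (Nat.div_le_self _ _)]
      refine Real.rpow_le_rpow_of_exponent_le (by norm_num) ?_
      have := Nat.cast_div_le (α := ℝ) (m := j) (n := k)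
      rw [mul_sub, mul_one_div]
      linarith
    have h2 : 1 ≤ Real.log ((4 ^ j : ℕ) : ℝ) ^ 2 := one_le_pow₀ (hj1.trans hl)
    refine (div_le_self (by positivity) h2).trans ?_
    linarith

end Crest.Agent.S0554
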